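import Crest.Agent.N255.Ch.Loc

/-!
# Row 255 (helper32): the chamber complex as one differential, and its slices
-/

set_option autoImplicit false
open Finsupp

noncomputable section

namespace Crest.Agent.N255.Ch

section sg
variable {S K : Type} [DecidableEq S] [LinearOrder K] {Γ : SimpleGraph S} {col : S → K}

/-- the sign of the degree -/
def sg : (Finset S →₀ ℤ) →ₗ[ℤ] (Finset S →₀ ℤ) := linearCombination ℤ fun t => single t ((-1) ^ t.card)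

theorem sg_apply (a : Finset S →₀ ℤ) (t : Finset S) : sg a t = (-1) ^ t.card * a t := by
  induction a using Finsupp.induction_linear with
  | zero => simp
  | add a b ha hb => simp only [map_add, Finsupp.add_apply, ha, hb, mul_add]
  | single u r =>
    rw [sg, linearCombination_single, Finsupp.smul_apply, smul_eq_mul]
    by_cases e : t = u
    · rw [e, single_eq_same, single_eq_same, mul_comm]
    · rw [single_eq_of_ne e, single_eq_of_ne e, mul_zero, mul_zero]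

theorem dq_sg (U : Finset S) (a : Finset S →₀ ℤ) : dq Γ col U (sg a) = -sg (dq Γ col U a) := by
  ext t
  rw [Finsupp.neg_apply, sg_apply, dq_apply, dq_apply]
  split_ifs
  · rw [Finset.mul_sum, ← Finset.sum_neg_distrib]
    refine Finset.sum_congr rfl fun s hs => ?_
    rw [sg_apply, ← Finset.card_erase_add_one (Finset.mem_inter.1 hs).1, pow_succ]
    ring
  · simp

theorem Q_erase {U t : Finset S} (h : t ∈ Q Γ U ∅) (s : S) : t.erase s ∈ Q Γ U ∅ :=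
  ⟨h.1.subset (Finset.coe_subset.2 (Finset.erase_subset _ _)), Finset.empty_subset _,
    (Finset.erase_subset _ _).trans h.2.2⟩

omit [DecidableEq S] in
theorem Q_mono {U U' t0 t0' : Finset S} (h : U' ⊆ U) (h0 : t0 ⊆ t0') : Q Γ U' t0' ⊆ Q Γ U t0 :=
  fun _ ht => ⟨ht.1, h0.trans ht.2.1, ht.2.2.trans h⟩

theorem rs_dq {U U' : Finset S} (h : U' ⊆ U) (a : Finset S →₀ ℤ) :
    rs (Q Γ U' ∅) (dq Γ col U a) = dq Γ col U' (rs (Q Γ U' ∅) a) := by
  ext t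
  by_cases e : t ∈ Q Γ U' ∅
  · rw [rs_of_mem _ e, ← dq_restrict h a e.2.2, dq_apply, dq_apply, if_pos e.1, if_pos e.1]
    exact Finset.sum_congr rfl fun s _ => by rw [rs_of_mem _ (Q_erase e s)]
  · rw [rs_of_notMem _ e]
    exact (by_contra fun e' => e (mem_Sp.1 (cl_Q U' ∅ _ (rs_mem _ a)) t (Ne.symm e')))

theorem pe_congr {X : Type} {z : X → ℤ} {a b : X →₀ ℤ} (k : ℤ) (h : ∀ t, z t ≠ 0 → a t = k * b t) :
    pe z a = k * pe z b := by
  classical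
  have : pe z (a - k • b) = 0 := by
    rw [linearCombination_apply, Finsupp.sum]
    refine Finset.sum_eq_zero fun t _ => ?_
    by_cases e : z t = 0
    · rw [e, smul_zero]
    · rw [Finsupp.sub_apply, Finsupp.smul_apply, h t e, smul_eq_mul k, sub_self, zero_smul]
  rwa [map_sub, map_smul, sub_eq_zero] at this

theorem pe_rs {X : Type} {z : X → ℤ} {V : Set X} (h : ∀ t, z t ≠ 0 → t ∈ V) (a : X →₀ ℤ) :
    pe z (rs V a) = pe z a :=
  (pe_congr 1 fun t ht => by rw [rs_of_mem _ (h t ht), one_mul]).trans (one_mul _)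

theorem pe_sg {z : Finset S → ℤ} {k : ℕ} (h : ∀ t, z t ≠ 0 → t.card = k) (a : Finset S →₀ ℤ) :
    pe z (sg a) = (-1) ^ k * pe z a :=
  pe_congr _ fun t ht => by rw [sg_apply, h t ht]

theorem pe_zero {X : Type} {z : X → ℤ} {a : X →₀ ℤ} (h : ∀ t, z t ≠ 0 → a t = 0) : pe z a = 0 :=
  (pe_congr (b := 0) 0 fun t ht => by rw [h t ht, zero_mul]).trans (zero_mul _)

theorem eq_zero_on {X N : Type} [AddCommGroup N] {f : (X →₀ ℤ) →ₗ[ℤ] N} {V : Set X}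
    (h : ∀ x ∈ V, f (single x 1) = 0) {a : X →₀ ℤ} (ha : a ∈ Sp V) : f a = 0 := by
  conv_lhs => rw [← a.sum_single]
  rw [Finsupp.sum, map_sum]
  refine Finset.sum_eq_zero fun x hx => ?_
  rw [← smul_single_one, map_smul, h x (mem_Sp.1 ha x (mem_support_iff.1 hx)), smul_zero]

end sg

variable {S K F Nd Ed : Type} [DecidableEq S] [LinearOrder K] [Group F] [MulAction F Nd]
  [MulAction F Ed] (M : Ce.Mir S K F Nd Ed)

/-- the cells containing `t0` -/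
def U (t0 : Finset S) : Set (Finset S × (Nd ⊕ Ed)) := {q | q.1 ∈ Q M.Γ (M.sup q.2) t0}

/-- the cells over the edges of the tree -/
def E (t0 : Finset S) : Set (Finset S × (Nd ⊕ Ed)) := U M t0 ∩ {q | ∃ e, q.2 = .inr e}

omit [LinearOrder K] in
theorem val_iff {σ : Finset S} {q : Finset S × (Nd ⊕ Ed)} :
    M.Val σ q ↔ q ∈ U M ∅ ∧ Disjoint q.1 σ :=
  ⟨fun h => ⟨⟨h.1, Finset.empty_subset _, h.2.1⟩, h.2.2⟩, fun h => ⟨h.1.1, h.1.2.2, h.2⟩⟩

omit [LinearOrder K] in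
theorem val_empty {q : Finset S × (Nd ⊕ Ed)} : M.Val ∅ q ↔ q ∈ U M ∅ := by
  simp [val_iff]

omit [LinearOrder K] in
theorem U_mono {t0 t1 : Finset S} (h : t0 ⊆ t1) : U M t1 ⊆ U M t0 :=
  fun _ hq => Q_mono subset_rfl h hq

omit [LinearOrder K] in
theorem fin_nd (b : Bool) (n : Nd) : {e : Ed | M.nd b (.inr e) = n}.Finite := by
  obtain ⟨A, hA, h⟩ := M.finE
  refine (hA.biUnion fun a _ => ((Gc.finite_mov M.free (M.nd b (.inr a))
    (Set.finite_singleton n)).image fun f => f • a)).subset fun e he => ?_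
  obtain ⟨f, hf⟩ := h e
  refine Set.mem_biUnion hf ⟨f⁻¹, ?_, inv_smul_smul f e⟩
  have := M.nd_smul b f (.inr e)
  rw [he] at this
  exact (congrArg (f⁻¹ • ·) this).trans (inv_smul_smul f n)

theorem dD_add (φ ψ : Finset S × (Nd ⊕ Ed) →₀ ℤ) (q : Finset S × (Nd ⊕ Ed)) :
    M.dD ⇑(φ + ψ) q = M.dD φ q + M.dD ψ q := by
  simp only [Ce.Mir.dD, Finsupp.add_apply, mul_add, Finset.sum_add_distrib]
  ring

theorem dD_smul (r : ℤ) (φ : Finset S × (Nd ⊕ Ed) →₀ ℤ) (q : Finset S × (Nd ⊕ Ed)) :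
    M.dD ⇑(r • φ) q = r * M.dD φ q := by
  simp only [Ce.Mir.dD, Finsupp.smul_apply, smul_eq_mul, mul_add, Finset.mul_sum]
  congr 1
  · exact Finset.sum_congr rfl fun _ _ => by ring
  · ring

theorem dD_ne {φ : Finset S × (Nd ⊕ Ed) → ℤ} {q : Finset S × (Nd ⊕ Ed)} (h : M.dD φ q ≠ 0) :
    (∃ s ∈ q.1, φ (q.1.erase s, q.2) ≠ 0) ∨
      ∃ b e, q.2 = .inr e ∧ φ (q.1, .inl (M.nd b (.inr e))) ≠ 0 := by
  by_contra hc
  push Not at hc
  apply h
  unfold Ce.Mir.dD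
  rw [Finset.sum_eq_zero fun s hs => by rw [hc.1 s hs, mul_zero], zero_add]
  rcases hq : q.2 with n | e
  · simp [Ce.Mir.nd]
  · rw [hc.2 true e hq, hc.2 false e hq, sub_self, mul_zero]

theorem dD_congr {φ ψ : Finset S × (Nd ⊕ Ed) → ℤ} {q : Finset S × (Nd ⊕ Ed)}
    (h : ∀ t ⊆ q.1, ∀ c, M.sup q.2 ⊆ M.sup c → φ (t, c) = ψ (t, c)) : M.dD φ q = M.dD ψ q := by
  unfold Ce.Mir.dD
  rw [h _ subset_rfl (.inl _) (M.sup_nd true _), h _ subset_rfl (.inl _) (M.sup_nd false _)]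
  congr 1
  exact Finset.sum_congr rfl fun s _ => by rw [h _ (Finset.erase_subset _ _) _ subset_rfl]

open Classical in
theorem fin_col (q0 : Finset S × (Nd ⊕ Ed)) : (Function.support fun q =>
    if q ∈ U M ∅ then M.dD (single q0 (1 : ℤ)) q else 0).Finite := by
  refine (((M.sup q0.2).finite_toSet.image fun s => (insert s q0.1, q0.2)).union
    (Set.finite_iUnion fun b : Bool => ((Set.Finite.biUnion
      ((Set.finite_singleton q0.2).preimage Sum.inl_injective.injOn) fun n _ => fin_nd M b n)).image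
        fun e => (q0.1, Sum.inr e))).subset fun q hq => ?_
  have hv : q ∈ U M ∅ := by_contra fun e => hq (if_neg e)
  have hq' : M.dD (single q0 (1 : ℤ)) q ≠ 0 := fun e => hq ((if_pos hv).trans e)
  rcases dD_ne M hq' with ⟨s, hs, h⟩ | ⟨b, e, he, h⟩
  · obtain rfl := (single_apply_ne_zero.1 h).1
    exact Or.inl ⟨s, hv.2.2 hs, Prod.ext (Finset.insert_erase hs) rfl⟩
  · obtain rfl := (single_apply_ne_zero.1 h).1
    exact Or.inr (Set.mem_iUnion.2 ⟨b, e, Set.mem_biUnion (x := M.nd b (.inr e)) rfl rfl,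
      Prod.ext rfl he.symm⟩)

open Classical in
/-- the differential of the chamber complex -/
def de : (Finset S × (Nd ⊕ Ed) →₀ ℤ) →ₗ[ℤ] (Finset S × (Nd ⊕ Ed) →₀ ℤ) :=
  linearCombination ℤ fun q0 => ofSupportFinite _ (fin_col M q0)

open Classical in
theorem de_apply (φ : Finset S × (Nd ⊕ Ed) →₀ ℤ) (q : Finset S × (Nd ⊕ Ed)) :
    de M φ q = if q ∈ U M ∅ then M.dD φ q else 0 := by
  induction φ using Finsupp.induction_linear with
  | zero => simp [Ce.Mir.dD]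
  | add a b ha hb =>
    rw [map_add, Finsupp.add_apply, ha, hb, dD_add]
    split_ifs <;> simp
  | single x r =>
    rw [← smul_single_one, dD_smul, map_smul, de, linearCombination_single, one_smul,
      Finsupp.smul_apply, smul_eq_mul, ofSupportFinite_coe]
    split_ifs <;> simp

theorem de_of_mem (φ : Finset S × (Nd ⊕ Ed) →₀ ℤ) {q : Finset S × (Nd ⊕ Ed)} (h : q ∈ U M ∅) :
    de M φ q = M.dD φ q := by rw [de_apply, if_pos h]

theorem de_mem (φ : Finset S × (Nd ⊕ Ed) →₀ ℤ) : de M φ ∈ Sp (U M ∅) :=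
  mem_Sp.2 fun q hq => by_contra fun e => hq (by rw [de_apply, if_neg e])

theorem de_ne {q0 q : Finset S × (Nd ⊕ Ed)} (h : de M (single q0 1) q ≠ 0) :
    q ∈ U M ∅ ∧ q0.1 ⊆ q.1 ∧ (q.2 = q0.2 ∧ q.1.card = q0.1.card + 1 ∨
      ∃ b e, q = (q0.1, .inr e) ∧ q0.2 = .inl (M.nd b (.inr e))) := by
  have hv := mem_Sp.1 (de_mem M _) q h
  rw [de_of_mem M _ hv] at h
  rcases dD_ne M h with ⟨s, hs, h⟩ | ⟨b, e, he, h⟩
  · obtain rfl := (single_apply_ne_zero.1 h).1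
    exact ⟨hv, Finset.erase_subset _ _, Or.inl ⟨rfl, (Finset.card_erase_add_one hs).symm⟩⟩
  · obtain rfl := (single_apply_ne_zero.1 h).1
    exact ⟨hv, subset_rfl, Or.inr ⟨b, e, Prod.ext rfl he, rfl⟩⟩

theorem cl_up {V : Set (Finset S)} (hV : ∀ t ∈ V, ∀ t', t ⊆ t' → t' ∈ V) :
    Cl (de M) (Sp (U M ∅ ∩ {q | q.1 ∈ V})) :=
  cl_Sp fun _ hq _ h => ⟨(de_ne M h).1, hV _ hq.2 _ (de_ne M h).2.1⟩

theorem cl_U (t0 : Finset S) : Cl (de M) (Sp (U M t0)) :=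
  cl_Sp fun _ hq _ h => ⟨(de_ne M h).1.1, hq.2.1.trans (de_ne M h).2.1, (de_ne M h).1.2.2⟩

/-- the part of a cochain over a cell of the tree -/
def sl (c : Nd ⊕ Ed) : (Finset S × (Nd ⊕ Ed) →₀ ℤ) →ₗ[ℤ] (Finset S →₀ ℤ) :=
  rs (Q M.Γ (M.sup c) ∅) ∘ₗ lcomapDomain (fun t => (t, c)) fun _ _ h => congrArg Prod.fst h

/-- a cochain placed over a cell of the tree -/
def inc (c : Nd ⊕ Ed) : (Finset S →₀ ℤ) →ₗ[ℤ] (Finset S × (Nd ⊕ Ed) →₀ ℤ) :=
  lmapDomain ℤ ℤ fun t => (t, c)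

omit [LinearOrder K]

theorem sl_of_mem {c : Nd ⊕ Ed} (φ : Finset S × (Nd ⊕ Ed) →₀ ℤ) {t : Finset S}
    (h : t ∈ Q M.Γ (M.sup c) ∅) : sl M c φ t = φ (t, c) := rs_of_mem _ h

theorem sl_mem0 (c : Nd ⊕ Ed) (φ : Finset S × (Nd ⊕ Ed) →₀ ℤ) :
    sl M c φ ∈ Sp (Q M.Γ (M.sup c) ∅) := rs_mem _ _

theorem sl_ne {c : Nd ⊕ Ed} {φ : Finset S × (Nd ⊕ Ed) →₀ ℤ} {t : Finset S} (h : sl M c φ t ≠ 0) :
    φ (t, c) ≠ 0 := by rwa [sl_of_mem M φ (mem_Sp.1 (sl_mem0 M c φ) t h)] at h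

theorem sl_mem {t0 : Finset S} (c : Nd ⊕ Ed) {φ : Finset S × (Nd ⊕ Ed) →₀ ℤ} (h : φ ∈ Sp (U M t0)) :
    sl M c φ ∈ Sp (Q M.Γ (M.sup c) t0) := mem_Sp.2 fun t ht => mem_Sp.1 h (t, c) (sl_ne M ht)

theorem sl_eq_zero {c : Nd ⊕ Ed} {φ : Finset S × (Nd ⊕ Ed) →₀ ℤ} (h : ∀ t, φ (t, c) = 0) :
    sl M c φ = 0 := Finsupp.ext fun t => by_contra fun e => sl_ne M e (h t)

theorem sl_ext {φ : Finset S × (Nd ⊕ Ed) →₀ ℤ} (h : φ ∈ Sp (U M ∅)) {c : Nd ⊕ Ed}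
    (h0 : sl M c φ = 0) (t : Finset S) : φ (t, c) = 0 := by
  by_contra e
  exact e (by rw [← sl_of_mem M φ (mem_Sp.1 h _ e), h0]; rfl)

omit [DecidableEq S] in
theorem inc_same (c : Nd ⊕ Ed) (a : Finset S →₀ ℤ) (t : Finset S) : inc c a (t, c) = a t :=
  mapDomain_apply (fun _ _ h => congrArg Prod.fst h) a t

omit [DecidableEq S] in
theorem inc_ne {c : Nd ⊕ Ed} (a : Finset S →₀ ℤ) {q : Finset S × (Nd ⊕ Ed)} (h : q.2 ≠ c) :
    inc c a q = 0 := mapDomain_of_notMem_range a q fun ⟨_, e⟩ => h (e ▸ rfl)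

omit [DecidableEq S] in
theorem inc_single (c : Nd ⊕ Ed) (t : Finset S) (r : ℤ) : inc c (single t r) = single (t, c) r :=
  mapDomain_single

theorem inc_mem {t0 : Finset S} {c : Nd ⊕ Ed} {a : Finset S →₀ ℤ}
    (h : a ∈ Sp (Q M.Γ (M.sup c) t0)) : inc c a ∈ Sp (U M t0 ∩ {q | q.2 = c}) :=
  mem_Sp.2 fun q hq => by
    obtain ⟨t, c'⟩ := q
    obtain rfl : c' = c := by_contra fun e => hq (inc_ne a e)
    rw [inc_same] at hq
    exact ⟨mem_Sp.1 h t hq, rfl⟩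

theorem sl_inc {t0 : Finset S} {c : Nd ⊕ Ed} {a : Finset S →₀ ℤ}
    (h : a ∈ Sp (Q M.Γ (M.sup c) t0)) : sl M c (inc c a) = a := by
  ext t
  by_cases e : t ∈ Q M.Γ (M.sup c) ∅
  · rw [sl_of_mem M _ e, inc_same]
  · rw [show sl M c (inc c a) t = 0 from rs_of_notMem _ e]
    exact (by_contra fun e' =>
      e (Q_mono subset_rfl (Finset.empty_subset _) (mem_Sp.1 h t (Ne.symm e'))))

theorem sl_inc_ne {c c' : Nd ⊕ Ed} (h : c' ≠ c) (a : Finset S →₀ ℤ) : sl M c' (inc c a) = 0 :=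
  sl_eq_zero M fun _ => inc_ne a h

omit [DecidableEq S] in
theorem pe_inc (z : Finset S × (Nd ⊕ Ed) → ℤ) (c : Nd ⊕ Ed) (a : Finset S →₀ ℤ) :
    pe z (inc c a) = pe (fun t => z (t, c)) a := linearCombination_mapDomain _ _ _

theorem sum_inc_sl {φ : Finset S × (Nd ⊕ Ed) →₀ ℤ} (h : φ ∈ Sp (U M ∅)) {B : Finset (Nd ⊕ Ed)}
    (hB : ∀ c, sl M c φ ≠ 0 → c ∈ B) : ∑ c ∈ B, inc c (sl M c φ) = φ := by
  ext ⟨t, c⟩
  rw [Finsupp.finsetSum_apply, Finset.sum_eq_single c (fun c' _ e => inc_ne _ e.symm)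
    fun hc => by rw [by_contra fun e => hc (hB c e), map_zero]; rfl, inc_same]
  by_cases e : φ (t, c) = 0
  · rw [e]; exact by_contra fun e' => sl_ne M e' e
  · exact sl_of_mem M φ (mem_Sp.1 h _ e)

theorem pe_eq_sum (z : Finset S × (Nd ⊕ Ed) → ℤ) {φ : Finset S × (Nd ⊕ Ed) →₀ ℤ}
    (h : φ ∈ Sp (U M ∅)) {B : Finset (Nd ⊕ Ed)} (hB : ∀ c, sl M c φ ≠ 0 → c ∈ B) :
    pe z φ = ∑ c ∈ B, pe (fun t => z (t, c)) (sl M c φ) := by
  conv_lhs => rw [← sum_inc_sl M h hB, map_sum]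
  exact Finset.sum_congr rfl fun c _ => pe_inc z c _

theorem exists_B (φ : Finset S × (Nd ⊕ Ed) →₀ ℤ) :
    ∃ B : Finset (Nd ⊕ Ed), ∀ c, sl M c φ ≠ 0 → c ∈ B := by
  classical
  refine ⟨φ.support.image Prod.snd, fun c hc => by_contra fun e => hc (sl_eq_zero M fun t => ?_)⟩
  exact by_contra fun e' => e (Finset.mem_image.2 ⟨(t, c), mem_support_iff.2 e', rfl⟩)

variable [LinearOrder K]

theorem sum_eps {c : Nd ⊕ Ed} (φ : Finset S × (Nd ⊕ Ed) →₀ ℤ) {t : Finset S}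
    (h : t ∈ Q M.Γ (M.sup c) ∅) :
    dq M.Γ M.col (M.sup c) (sl M c φ) t = ∑ s ∈ t, M.ε s t * φ (t.erase s, c) := by
  rw [dq_apply, if_pos h.1, Finset.inter_eq_left.2 h.2.2]
  refine Finset.sum_congr rfl fun s _ => ?_
  rw [sl_of_mem M φ (Q_erase h s), eps, Ce.Mir.ε, Finset.filter_erase,
    Finset.erase_eq_of_notMem (by simp)]

theorem sl_de_inl (n : Nd) (φ : Finset S × (Nd ⊕ Ed) →₀ ℤ) :
    sl M (.inl n) (de M φ) = dq M.Γ M.col (M.sp n) (sl M (.inl n) φ) := by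
  ext t
  by_cases e : t ∈ Q M.Γ (M.sup (.inl n)) ∅
  · rw [sl_of_mem M _ e, de_of_mem M φ (q := (t, .inl n)) e]
    refine Eq.trans ?_ (sum_eps M φ e).symm
    simp [Ce.Mir.dD, Ce.Mir.nd]
  · rw [show sl M (.inl n) (de M φ) t = 0 from rs_of_notMem _ e]
    exact (by_contra fun e' => e (mem_Sp.1 (cl_Q _ ∅ _ (sl_mem0 M (.inl n) φ)) t (Ne.symm e')))

theorem sl_de_inr (e : Ed) (φ : Finset S × (Nd ⊕ Ed) →₀ ℤ) :
    sl M (.inr e) (de M φ) = dq M.Γ M.col (M.sup (.inr e)) (sl M (.inr e) φ) +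
      sg (rs (Q M.Γ (M.sup (.inr e)) ∅) (sl M (.inl (M.tgt e)) φ - sl M (.inl (M.src e)) φ)) := by
  ext t
  rw [Finsupp.add_apply, sg_apply]
  by_cases h : t ∈ Q M.Γ (M.sup (.inr e)) ∅
  · rw [sl_of_mem M _ h, de_of_mem M φ (q := (t, .inr e)) h, sum_eps M φ h, rs_of_mem _ h,
      Finsupp.sub_apply,
      sl_of_mem M φ (c := .inl (M.tgt e)) (Q_mono (M.sup_nd true (.inr e)) subset_rfl h),
      sl_of_mem M φ (c := .inl (M.src e)) (Q_mono (M.sup_nd false (.inr e)) subset_rfl h)]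
    rfl
  · rw [show sl M (.inr e) (de M φ) t = 0 from rs_of_notMem _ h, rs_of_notMem _ h, mul_zero, add_zero]
    exact (by_contra fun e' => h (mem_Sp.1 (cl_Q _ ∅ _ (sl_mem0 M (.inr e) φ)) t (Ne.symm e')))

theorem de_de (φ : Finset S × (Nd ⊕ Ed) →₀ ℤ) : de M (de M φ) = 0 := by
  ext ⟨t, c⟩
  refine sl_ext M (de_mem M _) ?_ t
  rcases c with n | e
  · rw [sl_de_inl, sl_de_inl, dq_dq M.col_ne]
  · rw [sl_de_inr, sl_de_inr, sl_de_inl, sl_de_inl, map_add, dq_dq M.col_ne, dq_sg, zero_add]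
    simp only [map_sub]
    rw [rs_dq (U := M.sp (M.tgt e)) (M.sup_nd true (.inr e)),
      rs_dq (U := M.sp (M.src e)) (M.sup_nd false (.inr e)), neg_add_cancel]

omit [LinearOrder K] in
theorem exists_glue {t0 : Finset S} (a : Nd ⊕ Ed → Finset S →₀ ℤ)
    (ha : ∀ c, a c ∈ Sp (Q M.Γ (M.sup c) t0)) (B : Finset (Nd ⊕ Ed)) :
    ∃ x ∈ Sp (U M t0), (∀ c ∈ B, sl M c x = a c) ∧ ∀ c ∉ B, sl M c x = 0 := by
  refine ⟨∑ c ∈ B, inc c (a c), Submodule.sum_mem _ fun c _ =>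
    Sp_mono Set.inter_subset_left (inc_mem M (ha c)), fun c hc => ?_, fun c hc => ?_⟩
  · rw [map_sum, Finset.sum_eq_single_of_mem c hc fun c' _ e => sl_inc_ne M e.symm _, sl_inc M (ha c)]
  · rw [map_sum]
    exact Finset.sum_eq_zero fun c' hc' => sl_inc_ne M (fun e : c = c' => hc (e ▸ hc')) _

omit [LinearOrder K] in
theorem mem_E {t0 : Finset S} {φ : Finset S × (Nd ⊕ Ed) →₀ ℤ} (h : φ ∈ Sp (U M t0)) :
    φ ∈ Sp (E M t0) ↔ ∀ n, sl M (.inl n) φ = 0 := by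
  refine ⟨fun h n => sl_eq_zero M fun t => by_contra fun e => ?_, fun h0 => mem_Sp.2 fun q hq => ?_⟩
  · obtain ⟨_, he⟩ := (mem_Sp.1 h _ e).2
    cases he
  · obtain ⟨t, n | e⟩ := q
    · exact absurd (sl_ext M (Sp_mono (U_mono M (Finset.empty_subset _)) h) (h0 n) t) hq
    · exact ⟨mem_Sp.1 h _ hq, e, rfl⟩

omit [LinearOrder K] in
theorem E_le (t0 : Finset S) : Sp (E M t0) ≤ Sp (U M t0) := Sp_mono Set.inter_subset_left

omit [LinearOrder K] in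
theorem U_le (t0 : Finset S) : Sp (U M t0) ≤ Sp (U M ∅) := Sp_mono (U_mono M (Finset.empty_subset _))

theorem sl_de_E {t0 : Finset S} {y : Finset S × (Nd ⊕ Ed) →₀ ℤ} (hy : y ∈ Sp (E M t0)) (e : Ed) :
    sl M (.inr e) (de M y) = dq M.Γ M.col (M.sup (.inr e)) (sl M (.inr e) y) := by
  have h := (mem_E M (E_le M t0 hy)).1 hy
  rw [sl_de_inr, h, h, sub_self, map_zero, map_zero, add_zero]

/-- the node parts are cleared one by one -/
theorem clear_nodes {t0 : Finset S} {x : Finset S × (Nd ⊕ Ed) →₀ ℤ} (hx : x ∈ Sp (U M t0))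
    (h : ∀ n, ∃ a ∈ Sp (Q M.Γ (M.sp n) t0), dq M.Γ M.col (M.sp n) a = sl M (.inl n) x) :
    ∃ x' ∈ Sp (U M t0), x - de M x' ∈ Sp (E M t0) := by
  choose a ha hd using h
  obtain ⟨B, hB⟩ := exists_B M x
  obtain ⟨x', hx', h1, h2⟩ := exists_glue M (t0 := t0) (Sum.elim a fun _ => 0)
    (by rintro (n | e); exacts [ha n, Submodule.zero_mem _]) B
  refine ⟨x', hx', (mem_E M (Submodule.sub_mem _ hx (cl_U M t0 _ hx'))).2 fun n => ?_⟩
  rw [map_sub, sl_de_inl, sub_eq_zero]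
  by_cases e : Sum.inl n ∈ B
  · rw [h1 _ e]; exact (hd n).symm
  · rw [h2 _ e, map_zero]; exact by_contra fun e' => e (hB _ e')

/-- the edge parts are cleared one by one -/
theorem clear_edges {t0 : Finset S} {y : Finset S × (Nd ⊕ Ed) →₀ ℤ} (hy : y ∈ Sp (E M t0))
    (h : ∀ e, ∃ a ∈ Sp (Q M.Γ (M.sup (.inr e)) t0),
      dq M.Γ M.col (M.sup (.inr e)) a = sl M (.inr e) y) :
    ∃ y' ∈ Sp (E M t0), de M y' = y := by
  choose a ha hd using h
  obtain ⟨B, hB⟩ := exists_B M y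
  obtain ⟨x', hx', h1, h2⟩ := exists_glue M (t0 := t0) (Sum.elim (fun _ => 0) a)
    (by rintro (n | e); exacts [Submodule.zero_mem _, ha e]) B
  have h3 : ∀ n, sl M (.inl n) x' = 0 := fun n => by
    by_cases e : Sum.inl n ∈ B
    exacts [h1 _ e, h2 _ e]
  have hE := (mem_E M hx').2 h3
  refine ⟨x', hE, sub_eq_zero.1 (Finsupp.ext fun ⟨t, c⟩ => sl_ext M
    (Submodule.sub_mem _ (de_mem M _) (U_le M t0 (E_le M t0 hy))) ?_ t)⟩
  rw [map_sub, sub_eq_zero]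
  rcases c with n | e
  · rw [sl_de_inl, h3, map_zero, (mem_E M (E_le M t0 hy)).1 hy]
  · rw [sl_de_E M hE]
    by_cases e' : Sum.inr e ∈ B
    · rw [h1 _ e']; exact hd e
    · rw [h2 _ e', map_zero]; exact Eq.symm (by_contra fun e'' => e' (hB _ e''))

end Crest.Agent.N255.Ch

end
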