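import Crest.Agent.N255.Ch.Tr

/-!
# Row 255 (helper32): the chamber lemma from the local data
-/

set_option autoImplicit false
open Finsupp

noncomputable section

namespace Crest.Agent.N255.Ch

variable {S K F Nd Ed : Type} [DecidableEq S] [LinearOrder K] [Group F] [MulAction F Nd]
  [MulAction F Ed] {M : Ce.Mir S K F Nd Ed} [DecidableEq Ed] (L : Loc M)
include L

namespace Loc

omit L [DecidableEq Ed] [LinearOrder K] in
theorem sl_zero {t0 : Finset S} {x : Finset S × (Nd ⊕ Ed) →₀ ℤ} (hx : x ∈ Sp (U M t0)) {c : Nd ⊕ Ed}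
    (h : ¬t0 ⊆ M.sup c) : sl M c x = 0 :=
  sl_eq_zero M fun _ => by_contra fun e => h ((mem_Sp.1 hx _ e).2.1.trans (mem_Sp.1 hx _ e).2.2)

omit L [DecidableEq Ed] in
theorem dq_sl {x : Finset S × (Nd ⊕ Ed) →₀ ℤ} (hx : de M x = 0) (n : Nd) :
    dq M.Γ M.col (M.sp n) (sl M (.inl n) x) = 0 := by rw [← sl_de_inl, hx, map_zero]

omit L [DecidableEq Ed] in
theorem de_inc_E {t0 : Finset S} {n : Nd} {a : Finset S →₀ ℤ} (ha : a ∈ Sp (Q M.Γ (M.sp n) t0))
    (hd : dq M.Γ M.col (M.sp n) a = 0) :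
    inc (.inl n) a ∈ Sp (U M t0) ∧ de M (inc (.inl n) a) ∈ Sp (E M t0) := by
  classical
  have h1 : inc (.inl n) a ∈ Sp (U M t0) :=
    Sp_mono Set.inter_subset_left (inc_mem M (c := .inl n) ha)
  refine ⟨h1, (mem_E M (cl_U M t0 _ h1)).2 fun n' => ?_⟩
  rw [sl_de_inl, sl_inc_ite ha]
  split_ifs with h
  · rw [h, hd]
  · rw [map_zero]

theorem exists_vtx {t0 : Finset S} (h : M.Γ.IsClique (t0 : Set S)) :
    ∃ n, ¬M.ty n ∧ t0 ⊆ M.sp n := by
  obtain ⟨R, hR⟩ := M.root t0 h
  have h1 : t0 ⊆ M.sp R.o := fun s hs => (hR s hs).1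
  by_cases hty : M.ty R.o
  · obtain ⟨e, he⟩ := L.mid _ hty
    exact ⟨_, M.ty_src e, (he ▸ h1).trans (L.wall e)⟩
  · exact ⟨_, hty, h1⟩

theorem exists_tet {t0 : Finset S} (h : M.Γ.IsClique (t0 : Set S)) :
    ∃ q ∈ U M t0, de M (single q 1) = 0 ∧ (L.or q = 1 ∨ L.or q = -1) := by
  obtain ⟨n, hn, h0⟩ := L.exists_vtx h
  obtain ⟨t, ht, ho⟩ := (L.wal n hn).top t0 ⟨h, Finset.empty_subset _, h0⟩
  have h4 : t.card = 4 := ((L.wal n hn).o_sup t (by rcases ho with h | h <;> simp [h])).2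
  refine ⟨(t, .inl n), ht, Finsupp.ext fun q => by_contra fun hq => ?_, ?_⟩
  · obtain ⟨h1, -, h3 | ⟨b, e, rfl, -⟩⟩ := de_ne M hq
    · have := M.dimN n q.1 h1.1 (by have := h1.2.2; rwa [h3.1] at this)
      have := h3.2
      simp only at this
      omega
    · have := M.dimE e t h1.1 (h1.2.2.trans Finset.inter_subset_left)
        (h1.2.2.trans Finset.inter_subset_right)
      omega
  · rwa [← L.or_vtx hn] at ho

theorem top {t0 : Finset S} (h : M.Γ.IsClique (t0 : Set S)) : Top (de M) (pe L.or) (Sp (U M t0)) := by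
  obtain ⟨q, hq, hd, ho⟩ := L.exists_tet h
  refine ⟨single q (L.or q), single_mem hq _, by rw [← smul_single_one, map_smul, hd, smul_zero], ?_⟩
  rcases ho with h | h <;> simp [h]

/-- cliques in no wall -/
theorem ex_in {t0 : Finset S} (h : M.Γ.IsClique (t0 : Set S)) (hne : t0.Nonempty)
    (hw : ∀ e, ¬t0 ⊆ M.sp (M.tgt e)) : Ex (de M) (pe L.or) (Sp (U M t0)) := by
  obtain ⟨n, hn, h0⟩ := L.exists_vtx h
  intro x hx hd hs
  have hc : ∀ c, c ≠ .inl n → ¬t0 ⊆ M.sup c := by
    rintro (n' | e) hc h1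
    · by_cases hty : M.ty n'
      · obtain ⟨e, rfl⟩ := L.mid _ hty
        exact hw e h1
      · obtain ⟨s, hs⟩ := hne
        obtain ⟨e, -, -, h2⟩ := L.w2 n n' s hn hty (fun e => hc (e ▸ rfl)) (h0 hs) (h1 hs)
        exact hw e ((Finset.subset_inter h0 h1).trans h2)
    · exact hw e (h1.trans Finset.inter_subset_right)
  rw [pe_eq_sum M _ (U_le M t0 hx) (B := {.inl n}) fun c h => Finset.mem_singleton.2
    (by_contra fun e => h (sl_zero hx (hc c e))), Finset.sum_singleton, L.or_vtx hn] at hs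
  obtain ⟨x', hx', h1⟩ := clear_nodes M hx fun n' => by
    by_cases e : n' = n
    · subst e
      exact (L.wal n' hn).link_in t0 ⟨h, Finset.empty_subset _, h0⟩ hne (fun e _ => hw e) _
        (sl_mem M (.inl n') hx) (dq_sl hd n') hs
    · exact ⟨0, Submodule.zero_mem _, by
        rw [map_zero, sl_zero hx (hc _ fun e' => e (Sum.inl_injective e'))]⟩
  refine ⟨x', hx', (sub_eq_zero.1 (Finsupp.ext fun q => by_contra fun hq => ?_)).symm⟩
  obtain ⟨h2, e, he⟩ := mem_Sp.1 h1 q hq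
  exact hc q.2 (he ▸ Sum.inr_ne_inl) (h2.2.1.trans h2.2.2)

theorem dq_tri {e : Ed} {t : Finset S} (h : L.ω e t ≠ 0) (k : ℤ) :
    dq M.Γ M.col (M.sp (M.tgt e)) (single t k) = 0 := by
  rw [← smul_single_one, map_smul, show dq M.Γ M.col _ (single t 1) = 0 from
    Finsupp.ext fun t' => by_contra fun h' => ?_, smul_zero]
  obtain ⟨h1, s, hs, hn, rfl⟩ := dq_ne h'
  obtain ⟨h2, h3⟩ := (L.tor e).ω_sup t h
  have h4 := Finset.insert_subset hs h2.2.2
  have := M.dimE e _ h1 (h4.trans (L.wall e)) h4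
  rw [Finset.card_insert_of_notMem hn] at this
  omega

theorem dq_sl_E {t0 : Finset S} {y : Finset S × (Nd ⊕ Ed) →₀ ℤ} (hy : y ∈ Sp (E M t0))
    (hd : de M y = 0) (e : Ed) : dq M.Γ M.col (M.sp (M.tgt e)) (sl M (.inr e) y) = 0 := by
  rw [← L.sup_inr, ← sl_de_E M hy, hd, map_zero]

/-- cliques in a wall -/
theorem ex_bd {t0 : Finset S} (hne : t0.Nonempty) {e0 : Ed}
    (h : t0 ∈ Q M.Γ (M.sp (M.tgt e0)) ∅) : Ex (de M) (pe L.or) (Sp (U M t0)) := by
  classical
  have hq : ∀ {C : Finset S}, t0 ⊆ C → t0 ∈ Q M.Γ C ∅ := fun hC => ⟨h.1, h.2.1, hC⟩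
  refine cone (LinearMap.pi fun e => pe (L.ω e) ∘ₗ sl M (.inr e)) (de_de M) L.stokes (E_le M t0)
    (fun y hy hd hp => clear_edges M hy fun e => ?_) (fun x hx hd => ?_) fun y hy hd hs => ?_
  · by_cases he : t0 ⊆ M.sup (.inr e)
    · have h1 := sl_mem M (.inr e) (E_le M t0 hy)
      rw [L.sup_inr] at he h1 ⊢
      exact (L.tor e).link t0 (hq he) hne _ h1 (L.dq_sl_E hy hd e) (congrFun hp e)
    · exact ⟨0, Submodule.zero_mem _, by rw [map_zero, sl_zero (E_le M t0 hy) he]⟩
  · have hv : ∀ e, t0 ⊆ M.sp (M.tgt e) → ∃ a ∈ Sp (Q M.Γ (M.sp (M.src e)) t0),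
        dq M.Γ M.col (M.sp (M.src e)) a = sl M (.inl (M.src e)) x := fun e he =>
      (L.wal _ (M.ty_src e)).link_bd e rfl t0 (hq he) hne _ (sl_mem M (.inl _) hx) (dq_sl hd _) rfl
    refine clear_nodes M hx fun n => ?_
    by_cases hn : t0 ⊆ M.sp n
    swap
    · exact ⟨0, Submodule.zero_mem _, by rw [map_zero, sl_zero hx (c := .inl n) hn]⟩
    by_cases hty : M.ty n
    · obtain ⟨e, rfl⟩ := L.mid _ hty
      obtain ⟨a, -, ha⟩ := hv e hn
      refine (L.tor e).link t0 (hq hn) hne _ (sl_mem M (.inl _) hx) (dq_sl hd _) ?_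
      rw [L.per_eq (L.cω e) hd, ← ha, (L.cω e).dq (L.wall e)]
    · by_cases e : n = M.src e0
      · exact e ▸ hv e0 h.2.2
      · obtain ⟨s, hs⟩ := hne
        have h0 := h.2.2.trans (L.wall e0)
        obtain ⟨e1, rfl, -, h2⟩ := L.w2 n _ s hty (M.ty_src e0) e (hn hs) (h0 hs)
        exact hv e1 ((Finset.subset_inter hn h0).trans h2)
  · have hz : ∀ e, e ≠ e0 → e ≠ L.op e0 → sl M (.inr e) y = 0 := fun e h1 h2 =>
      sl_zero (E_le M t0 hy) fun h3 =>
        (L.eq_of_sub hne h.2.2 (h3.trans Finset.inter_subset_right)).elim h1 h2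
    rw [pe_eq_sum M _ (U_le M t0 (E_le M t0 hy)) (B := {.inr e0, .inr (L.op e0)}),
      Finset.sum_pair (by simpa using (L.op_ne e0).symm), L.or_inr, L.or_inr] at hs
    swap
    · rintro (n | e) hc
      · exact absurd ((mem_E M (E_le M t0 hy)).1 hy n) hc
      · by_contra h'
        simp only [Finset.mem_insert, Finset.mem_singleton, Sum.inr.injEq, not_or] at h'
        exact hc (hz e h'.1 h'.2)
    obtain ⟨t, ht, ho⟩ := (L.tor e0).top t0 h
    have ha := single_mem ht (-pe (L.ω e0) (sl M (.inr e0) y) * L.ω e0 t)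
    obtain ⟨h1, h2⟩ := de_inc_E ha (L.dq_tri (by rcases ho with h | h <;> simp [h]) _)
    refine ⟨_, h1, h2, funext fun e => ?_⟩
    simp only [LinearMap.pi_apply, LinearMap.comp_apply]
    by_cases e1 : M.tgt e0 = M.tgt e
    · rw [L.per_de (L.cω e), sl_inc_ite ha, sl_inc_ite ha, if_pos e1.symm, if_neg (src_ne_tgt _ _)]
      rcases L.tgt_eq _ _ e1 with rfl | rfl
      · rcases ho with h | h <;> simp [h]
      · rw [eq_neg_of_add_eq_zero_right hs, L.pe_op]
        rcases ho with h | h <;> simp [h]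
    · rw [sl_de_inc ha (Ne.symm e1) (src_ne_tgt _ _), hz e (fun h => e1 (h ▸ rfl))
        fun h => e1 (h ▸ (L.tgt_op e0).symm)]

/-- the three periods on the wall of `e` -/
def per (e : Ed) : (Finset S →₀ ℤ) →ₗ[ℤ] ℤ × ℤ × ℤ :=
  (pe (L.m e)).prod ((pe (L.m (L.op e))).prod (pe (L.ω e)))

theorem per_apply (e : Ed) (a : Finset S →₀ ℤ) :
    L.per e a = (pe (L.m e) a, pe (L.m (L.op e)) a, pe (L.ω e) a) := rfl

theorem per_vtx {n : Nd} (hn : ¬M.ty n) {a : Finset S →₀ ℤ} (ha : a ∈ Sp (Q M.Γ (M.sp n) ∅))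
    (e : Ed) : L.per e (sl M (.inr e) (de M (inc (.inl n) a))) = open Classical in
      if M.src e = n then (-pe (L.m e) a, -pe (L.m (L.op e)) a, pe (L.ω e) a) else 0 := by
  classical
  have h : M.tgt e ≠ n := fun h => hn (h ▸ M.ty_tgt e)
  split_ifs with h'
  · rw [per_apply, L.per_de (L.cm e), L.per_de (L.cl e), L.per_de (L.cω e), sl_inc_ite ha,
      sl_inc_ite ha, if_neg h, if_pos h']
    simp
  · rw [sl_de_inc ha h h', map_zero]

theorem per_mid {e0 : Ed} {a : Finset S →₀ ℤ} (ha : a ∈ Sp (Q M.Γ (M.sp (M.tgt e0)) ∅))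
    (e : Ed) : L.per e (sl M (.inr e) (de M (inc (.inl (M.tgt e0)) a))) =
      if e = e0 ∨ e = L.op e0 then (pe (L.m e) a, pe (L.m (L.op e)) a, -pe (L.ω e) a) else 0 := by
  classical
  split_ifs with h'
  · have h : M.tgt e = M.tgt e0 := by rcases h' with rfl | rfl; exacts [rfl, L.tgt_op _]
    rw [per_apply, L.per_de (L.cm e), L.per_de (L.cl e), L.per_de (L.cω e), sl_inc_ite ha,
      sl_inc_ite ha, if_pos h, if_neg (src_ne_tgt _ _)]
    simp
  · rw [sl_de_inc ha (fun h => h' (L.tgt_eq _ _ h.symm)) (src_ne_tgt _ _), map_zero]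

/-- the whole complex -/
theorem ex_all : Ex (de M) (pe L.or) (Sp (U M ∅)) := by
  classical
  let π : (Finset S × (Nd ⊕ Ed) →₀ ℤ) →ₗ[ℤ] (Ed → ℤ × ℤ × ℤ) :=
    LinearMap.pi fun e => L.per e ∘ₗ sl M (.inr e)
  refine cone π (de_de M) L.stokes (E_le M ∅)
    (fun y hy hd hp => clear_edges M hy fun e => ?_) (fun x hx hd => ?_) fun y hy hd hs => ?_
  · have h1 := sl_mem0 M (.inr e) y
    have h2 : L.per e (sl M (.inr e) y) = 0 := congrFun hp e
    rw [L.sup_inr] at h1 ⊢
    exact (L.tor e).glob _ h1 (L.dq_sl_E hy hd e) (congrArg Prod.fst h2)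
      (congrArg (Prod.fst ∘ Prod.snd) h2) (congrArg (Prod.snd ∘ Prod.snd) h2)
  · have hl : ∀ e, pe (L.m (L.op e)) (sl M (.inl (M.tgt e)) x) = 0 := fun e => by
      rw [L.per_eq (L.cl e) hd, L.lon (sl_mem0 M (.inl _) x) (dq_sl hd _)]
    have hm : ∀ e, pe (L.m e) (sl M (.inl (M.tgt e)) x) = 0 := fun e => by
      have := hl (L.op e)
      rwa [L.op_op, L.tgt_op] at this
    obtain ⟨B, hB⟩ := exists_B M x
    have hω : ∀ e, pe (L.ω e) (sl M (.inl (M.src e)) x) = 0 := by
      refine L.flow _ (B.toLeft.biUnion (star M)) (fun e he => ?_) (fun e => ?_) fun n hn => ?_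
      · exact Finset.mem_biUnion.2 ⟨M.src e, Finset.mem_toLeft.2
          (hB _ fun h => he (by rw [h, map_zero])), mem_star.2 rfl⟩
      · rw [← L.per_eq (L.cω _) hd, ← L.per_eq (L.cω _) hd, L.tgt_op, L.pe_op]
      · have := L.vs hn (sl_mem0 M (.inl n) x)
        rw [dq_sl hd, map_zero, zero_add] at this
        rw [← this]
        exact Finset.sum_congr rfl fun e he => by rw [mem_star.1 he]
    refine clear_nodes M hx fun n => ?_
    by_cases hty : M.ty n
    · obtain ⟨e, rfl⟩ := L.mid _ hty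
      exact (L.tor e).glob _ (sl_mem0 M (.inl _) x) (dq_sl hd _) (hm e) (hl e)
        (by rw [L.per_eq (L.cω e) hd, hω])
    · refine (L.wal n hty).glob _ (sl_mem0 M (.inl _) x) (dq_sl hd _) ?_
      rintro e rfl
      exact ⟨by rw [← L.per_eq (L.cm e) hd, hm], hω e⟩
  · let W : Submodule ℤ (Ed → ℤ × ℤ × ℤ) :=
      (Sp (U M ∅) ⊓ (Sp (E M ∅)).comap (de M)).map (π ∘ₗ de M)
    have hW : ∀ n, ∀ a ∈ Sp (Q M.Γ (M.sp n) ∅), dq M.Γ M.col (M.sp n) a = 0 →
        (fun e => L.per e (sl M (.inr e) (de M (inc (.inl n) a)))) ∈ W :=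
      fun n a ha hd => ⟨_, de_inc_E ha hd, rfl⟩
    have w1 : ∀ e, (Pi.single e (1, 0, 0) : Ed → ℤ × ℤ × ℤ) ∈ W := fun e => by
      obtain ⟨a, ha, hd, hp⟩ := (L.wal _ (M.ty_src e)).one e rfl
      convert W.neg_mem (hW _ a ha hd) using 1
      funext e'
      rw [Pi.neg_apply, L.per_vtx (M.ty_src e) ha, Pi.single_apply]
      by_cases h : M.src e' = M.src e
      · rw [if_pos h, (hp e' h).1, (hp e' h).2.1, (hp e' h).2.2]
        split_ifs <;> simp [Prod.ext_iff]
      · rw [if_neg h, if_neg fun h' : e' = e => h (h' ▸ rfl), neg_zero]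
    have w2 : ∀ e, (Pi.single e (0, 1, 0) : Ed → ℤ × ℤ × ℤ) ∈ W := fun e => by
      obtain ⟨a, ha, hd, hp⟩ := (L.wal _ (M.ty_src (L.op e))).one (L.op e) rfl
      obtain ⟨p1, p2, p3⟩ := hp (L.op e) rfl
      rw [if_pos rfl] at p1
      rw [L.op_op] at p2
      have p4 := p3
      rw [L.pe_op, neg_eq_zero] at p4
      have hw := L.wall (L.op e)
      rw [L.tgt_op] at hw
      have hb := rs_mem (Q M.Γ (M.sp (M.tgt e)) ∅) a
      convert W.sub_mem (hW _ _ hb (by rw [← rs_dq hw, hd, map_zero])) (w1 (L.op e)) using 1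
      funext e'
      rw [Pi.sub_apply, L.per_mid hb, Pi.single_apply, Pi.single_apply]
      by_cases h : e' = e
      · subst h
        simp [(L.cm e').rs, (L.cl e').rs, (L.cω e').rs, p1, p2, p4, (L.op_ne e').symm]
      · by_cases h' : e' = L.op e
        · subst h'
          simp [L.op_op, L.pe_op, (L.cm e).rs, (L.cl e).rs, (L.cω e).rs, p1, p2, p4, h]
        · simp [h, h']
    let g : Ed → (Ed → ℤ × ℤ × ℤ) ⧸ W := fun e => W.mkQ (Pi.single e (0, 0, 1))
    have hg : ∀ e e', g e = g e' := by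
      refine conn (M := M) g (fun e e' h => ?_) fun e e' h => ?_
      · obtain ⟨j0, h2⟩ := (L.wal _ (M.ty_src e)).two
        obtain ⟨a, ha, hd, hp⟩ := h2 e rfl
        obtain ⟨b, hb, hd', hp'⟩ := h2 e' h.symm
        refine (Submodule.Quotient.eq W).2 ?_
        convert W.sub_mem (hW _ a ha hd) (hW _ b hb hd') using 1
        funext i
        rw [Pi.sub_apply, Pi.sub_apply, L.per_vtx (M.ty_src e) ha, L.per_vtx (M.ty_src e) hb,
          Pi.single_apply, Pi.single_apply]
        by_cases hi : M.src i = M.src e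
        · rw [if_pos hi, if_pos hi, (hp i hi).1, (hp i hi).2.1, (hp i hi).2.2, (hp' i hi).1,
            (hp' i hi).2.1, (hp' i hi).2.2]
          split_ifs <;> simp
        · rw [if_neg hi, if_neg hi, if_neg fun h' : i = e => hi (h' ▸ rfl),
            if_neg fun h' : i = e' => hi (h' ▸ h.symm)]
      · rcases L.tgt_eq e e' h with rfl | rfl
        · rfl
        obtain ⟨t, ht, ho⟩ := (L.tor e).top ∅ ⟨by simp, subset_rfl, Finset.empty_subset _⟩
        have hω : L.ω e t ≠ 0 := by rcases ho with h | h <;> simp [h]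
        have h3 := ((L.tor e).ω_sup t hω).2
        have m1 : L.m e t = 0 := by_contra fun h => by have := ((L.cm e).sup t h).2; omega
        have m2 : L.m (L.op e) t = 0 := by_contra fun h => by have := ((L.cl e).sup t h).2; omega
        have ha := single_mem ht (-L.ω e t)
        refine (Submodule.Quotient.eq W).2 ?_
        convert hW _ _ ha (L.dq_tri hω _) using 1
        funext i
        rw [Pi.sub_apply, L.per_mid ha, Pi.single_apply, Pi.single_apply]
        by_cases h : i = e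
        · subst h
          rcases ho with h | h <;> simp [h, m1, m2, (L.op_ne i).symm]
        · by_cases h' : i = L.op e
          · subst h'
            rcases ho with h' | h' <;> simp [h', h, m1, m2, L.op_op, L.ω_op]
          · simp [h, h']
    have hv : ∀ e (v : ℤ × ℤ × ℤ), W.mkQ (Pi.single e v) = v.2.2 • g e := fun e v => by
      have : (Pi.single e v : Ed → ℤ × ℤ × ℤ) = v.1 • Pi.single e (1, 0, 0) +
          v.2.1 • Pi.single e (0, 1, 0) + v.2.2 • Pi.single e (0, 0, 1) := by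
        rw [← Pi.single_smul, ← Pi.single_smul, ← Pi.single_smul, ← Pi.single_add, ← Pi.single_add]
        simp
      rw [this, map_add, map_add, map_smul, map_smul, map_smul, W.mkQ_apply, W.mkQ_apply,
        (Submodule.Quotient.mk_eq_zero W).2 (w1 e), (Submodule.Quotient.mk_eq_zero W).2 (w2 e)]
      simp [g]
    obtain ⟨B, hB⟩ := exists_B M y
    have hn := (mem_E M (E_le M ∅ hy)).1 hy
    rw [pe_eq_sum M _ (E_le M ∅ hy) (B := B.toRight.image .inr), Finset.sum_image
      Sum.inr_injective.injOn] at hs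
    swap
    · rintro (n | e) hc
      · exact absurd (hn n) hc
      · exact Finset.mem_image_of_mem _ (Finset.mem_toRight.2 (hB _ hc))
    have e1 : π y = ∑ e ∈ B.toRight, Pi.single e (π y e) := by
      funext e
      rw [Finset.sum_apply, Finset.sum_eq_single e (fun e' _ h => Pi.single_eq_of_ne h.symm _)
        fun h => ?_, Pi.single_eq_same]
      have : π y e = 0 := by
        change L.per e (sl M (.inr e) y) = 0
        rw [by_contra fun h' => h (Finset.mem_toRight.2 (hB _ h')), map_zero]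
      rw [this, Pi.single_zero]; rfl
    have e2 : π y ∈ W := by
      rw [← Submodule.Quotient.mk_eq_zero, ← W.mkQ_apply, e1, map_sum]
      rcases B.toRight.eq_empty_or_nonempty with h | ⟨e0, -⟩
      · rw [h, Finset.sum_empty]
      · rw [Finset.sum_congr rfl fun e _ => by rw [hv, hg e e0], ← Finset.sum_smul]
        exact (congrArg (· • g e0) hs).trans (zero_smul _ _)
    obtain ⟨x, hx, h⟩ := e2
    exact ⟨x, hx.1, hx.2, h⟩

theorem ex {t0 : Finset S} (h : M.Γ.IsClique (t0 : Set S)) : Ex (de M) (pe L.or) (Sp (U M t0)) := by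
  rcases t0.eq_empty_or_nonempty with rfl | hne
  · exact L.ex_all
  by_cases hw : ∃ e, t0 ⊆ M.sp (M.tgt e)
  · obtain ⟨e, he⟩ := hw
    exact L.ex_bd hne ⟨h, Finset.empty_subset _, he⟩
  · exact L.ex_in h hne fun e he => hw ⟨e, he⟩

theorem ex_star {σ : Finset S} (hσ : σ.Nonempty) : ∀ t0 : Finset S,
    M.Γ.IsClique ((t0 ∪ σ : Finset S) : Set S) →
      Ex (de M) (pe L.or) (Sp (U M t0 ∩ {q | ¬Disjoint q.1 σ})) := by
  have hc : ∀ t0 σ : Finset S, Cl (de M) (Sp (U M t0 ∩ {q | ¬Disjoint q.1 σ})) := fun t0 σ =>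
    cl_Sp fun q hq q' h => ⟨mem_Sp.1 (cl_U M t0 _ (single_mem hq.1 1)) q' h,
      fun h' => hq.2 (h'.mono_left (de_ne M h).2.1)⟩
  have hi : ∀ (s : S) (t0 : Finset S) q, q ∈ U M (insert s t0) ↔ q ∈ U M t0 ∧ s ∈ q.1 :=
    fun s t0 q => by simp only [U, Q, Set.mem_ofPred_eq, Finset.insert_subset_iff]; tauto
  induction hσ using Finset.Nonempty.cons_induction with
  | singleton s =>
    intro t0 h
    have : U M t0 ∩ {q | ¬Disjoint q.1 {s}} = U M (insert s t0) := by ext q; simp [hi]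
    rw [this]
    exact L.ex (by convert h using 2; ext; simp)
  | cons s σ hs hσ ih =>
    intro t0 h
    rw [Finset.cons_eq_insert] at h ⊢
    have e1 : U M t0 ∩ {q | ¬Disjoint q.1 (insert s σ)} =
        U M t0 ∩ {q | ¬Disjoint q.1 σ} ∪ U M (insert s t0) := by
      ext q
      simp only [Set.mem_inter_iff, Set.mem_ofPred_eq, Finset.disjoint_insert_right, Set.mem_union, hi]
      tauto
    have e2 : U M t0 ∩ {q | ¬Disjoint q.1 σ} ∩ U M (insert s t0) =
        U M (insert s t0) ∩ {q | ¬Disjoint q.1 σ} := by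
      ext q
      simp only [Set.mem_inter_iff, Set.mem_ofPred_eq, hi]
      tauto
    have h' : M.Γ.IsClique ((insert s t0 ∪ σ : Finset S) : Set S) := by
      rwa [Finset.insert_union, ← Finset.union_insert]
    rw [e1, Sp_union]
    refine mv (de_de M) L.stokes (hc _ _) (cl_U M _)
      (ih t0 (h'.subset (Finset.coe_subset.2
        (Finset.union_subset_union_left (Finset.subset_insert _ _)))))
      (L.ex (h'.subset (Finset.coe_subset.2 Finset.subset_union_left))) ?_ ?_
    · rw [← Sp_inter, e2]; exact ih _ h'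
    · rw [← Sp_inter, e2]
      refine (L.top h').mono (Sp_mono fun q hq => ⟨U_mono M Finset.subset_union_left hq, fun hd => ?_⟩)
      exact hσ.ne_empty (Finset.disjoint_self_iff_empty _ |>.1
        (hd.mono_left (Finset.subset_union_right.trans hq.2.1)))

omit L [DecidableEq S] [DecidableEq Ed] in
theorem sum_eq_pe {X : Type} (z : X → ℤ) (φ : X →₀ ℤ) : (φ.sum fun q k => z q * k) = pe z φ := by
  simp only [linearCombination_apply, smul_eq_mul, mul_comm]

/-- **the chamber lemma** -/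
def cham (e0 : Ed) : M.Cham where
  or := L.or
  or_smul f τ c h := by
    rcases c with n | e
    · by_cases hn : M.ty n
      · exact (congrFun (L.or_mid ((M.ty_smul f n).2 hn)) _).trans (congrFun (L.or_mid hn) τ).symm
      · exact (congrFun (L.or_vtx (mt (M.ty_smul f n).1 hn)) _).trans
          ((L.o_smul f n τ hn h.2.1).trans (congrFun (L.or_vtx hn) τ).symm)
    · exact L.ω_smul f e τ (h.2.1.trans Finset.inter_subset_right)
  or_dim := by
    rintro ⟨t, n | e⟩ - h
    · by_cases hn : M.ty n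
      · exact absurd (congrFun (L.or_mid hn) t) h
      · exact ((L.wal n hn).o_sup t fun h' => h ((congrFun (L.or_vtx hn) t).trans h')).2
    · exact congrArg (· + 1) ((L.tor e).ω_sup t h).2
  unit := by
    obtain ⟨t, ht, h | h⟩ := (L.tor e0).top ∅ ⟨by simp, subset_rfl, Finset.empty_subset _⟩
    · exact ⟨(t, .inr e0), (val_empty M).2 (by rwa [← L.sup_inr] at ht), h⟩
    · exact ⟨(t, .inr (L.op e0)), (val_empty M).2 (by rwa [← L.tgt_op, ← L.sup_inr] at ht),
        (L.ω_op e0 t).trans (by rw [h, neg_neg])⟩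
  stokes q0 _ φ h1 h2 := by
    have : φ = de M (single q0 1) := Finsupp.ext fun q => by
      rw [de_apply]
      split_ifs with hq
      · exact h2 q ((val_empty M).2 hq)
      · exact by_contra fun h => hq ((val_empty M).1 (h1 q h))
    rw [sum_eq_pe, this, L.stokes]
  ex σ hσ φ h1 h2 h3 := by
    have hφ : φ ∈ Sp (U M ∅) := mem_Sp.2 fun q hq => ((val_iff M).1 (h1 q hq)).1
    rcases σ.eq_empty_or_nonempty with rfl | hne
    · obtain ⟨a, ha, e⟩ := L.ex_all φ hφ (Finsupp.ext fun q => by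
        rw [de_apply]
        split_ifs with hq
        exacts [h2 q ((val_empty M).2 hq), rfl]) (by rw [← sum_eq_pe, h3 rfl])
      exact ⟨a, fun q hq => (val_empty M).2 (mem_Sp.1 ha q hq), fun q hq => by
        rw [← de_of_mem M a ((val_empty M).1 hq), e]⟩
    · obtain ⟨a, ha, e⟩ := ses (de_de M) L.stokes (Sp_mono Set.inter_subset_left)
        (L.ex_star hne ∅ (by simpa using hσ))
        ((L.top hσ).mono (Sp_mono fun q hq => ⟨U_mono M (Finset.empty_subset _) hq, fun hd =>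
          hne.ne_empty (Finset.disjoint_self_iff_empty _ |>.1 (hd.mono_left hq.2.1))⟩))
        L.ex_all φ hφ (mem_Sp.2 fun q hq => by
          have hv := mem_Sp.1 (de_mem M φ) q hq
          exact ⟨hv, fun hd => hq ((de_of_mem M φ hv).trans (h2 q ((val_iff M).2 ⟨hv, hd⟩)))⟩)
      refine ⟨rs {q | Disjoint q.1 σ} a, fun q hq =>
        (val_iff M).2 (mem_Sp.1 (rs_mem_inter
          {q : Finset S × (Nd ⊕ Ed) | Disjoint q.1 σ} ha) q hq), fun q hq => ?_⟩
      obtain ⟨hv, hd⟩ := (val_iff M).1 hq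
      rw [dD_congr M (ψ := a) fun t ht c _ => rs_of_mem a (hd.mono_left ht), ← de_of_mem M a hv]
      have : (φ - de M a) q = 0 := by_contra fun h => (mem_Sp.1 e q h).2 hd
      exact (sub_eq_zero.1 this).symm

end Loc

end Crest.Agent.N255.Ch

end
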