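import Crest.Agent.N255.Ch.Abs

/-!
# Row 255 (helper32): augmented cochains on the cliques of a coloured graph
-/

set_option autoImplicit false
open Finsupp

noncomputable section

namespace Crest.Agent.N255.Ch

variable {S S' K : Type} [DecidableEq S] [DecidableEq S'] [LinearOrder K]
  (Γ : SimpleGraph S) (col : S → K)

/-- the sign of inserting `s` into `t` -/
def eps (s : S) (t : Finset S) : ℤ := (-1) ^ (t.filter fun x => col x < col s).card

open Classical in
/-- the coboundary of a clique inside `U` -/
def cof (U t : Finset S) : Finset S →₀ ℤ :=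
  ∑ s ∈ U with s ∉ t ∧ Γ.IsClique (insert s t : Finset S), single (insert s t) (eps col s t)

/-- the coboundary inside `U` -/
def dq (U : Finset S) : (Finset S →₀ ℤ) →ₗ[ℤ] (Finset S →₀ ℤ) := linearCombination ℤ (cof Γ col U)

/-- the cliques between `t0` and `U` -/
def Q (U t0 : Finset S) : Set (Finset S) := {t | Γ.IsClique t ∧ t0 ⊆ t ∧ t ⊆ U}

/-- the period of a cochain over the chain with coefficients `z` -/
abbrev pe {X : Type} (z : X → ℤ) : (X →₀ ℤ) →ₗ[ℤ] ℤ := linearCombination ℤ z

variable {Γ col}

omit [DecidableEq S] in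
theorem eps_mul_self (s : S) (t : Finset S) : eps col s t * eps col s t = 1 := by
  rw [eps, ← mul_pow]; simp

omit [DecidableEq S] in
theorem eps_ne (s : S) (t : Finset S) : eps col s t ≠ 0 := fun h => by
  simpa [h] using eps_mul_self (col := col) s t

theorem eps_insert {s x : S} {t : Finset S} (h : x ∉ t) :
    eps col s (insert x t) = (if col x < col s then -1 else 1) * eps col s t := by
  unfold eps
  rw [Finset.filter_insert]
  split_ifs with e
  · rw [Finset.card_insert_of_notMem (fun h' => h (Finset.mem_filter.1 h').1), pow_succ]; ring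
  · rw [one_mul]

theorem dq_single (U t : Finset S) (r : ℤ) : dq Γ col U (single t r) = r • cof Γ col U t :=
  linearCombination_single _ _ _

open Classical in
theorem cof_apply (U t t' : Finset S) : cof Γ col U t t' =
    if Γ.IsClique t' then ∑ s ∈ t' ∩ U, if t'.erase s = t then eps col s t else 0 else 0 := by
  rw [cof, Finsupp.finsetSum_apply, Finset.sum_filter]
  split_ifs with h
  · rw [← Finset.sum_subset (Finset.inter_subset_right (s₁ := t'))]
    · refine Finset.sum_congr rfl fun s hs => ?_
      have hs' := (Finset.mem_inter.1 hs).1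
      by_cases e : t'.erase s = t
      · subst e
        simp [Finset.insert_erase hs', h]
      · rw [if_neg e]
        split_ifs with h'
        · exact single_eq_of_ne fun e' => e (by rw [e', Finset.erase_insert h'.1])
        · rfl
    · intro s hs hn
      split_ifs with h'
      · exact single_eq_of_ne fun e' => hn (Finset.mem_inter.2 ⟨e' ▸ Finset.mem_insert_self _ _, hs⟩)
      · rfl
  · refine Finset.sum_eq_zero fun s _ => ?_
    split_ifs with h'
    · exact single_eq_of_ne fun e' => h (e' ▸ h'.2)
    · rfl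

open Classical in
/-- the evaluation formula -/
theorem dq_apply (U : Finset S) (a : Finset S →₀ ℤ) (t' : Finset S) : dq Γ col U a t' =
    if Γ.IsClique t' then ∑ s ∈ t' ∩ U, eps col s (t'.erase s) * a (t'.erase s) else 0 := by
  induction a using Finsupp.induction_linear with
  | zero => simp
  | add a b ha hb =>
    rw [map_add, Finsupp.add_apply, ha, hb]
    split_ifs <;> simp [mul_add, Finset.sum_add_distrib]
  | single t r =>
    rw [dq_single, Finsupp.smul_apply, cof_apply]
    split_ifs with h
    · rw [smul_eq_mul, Finset.mul_sum]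
      refine Finset.sum_congr rfl fun s _ => ?_
      by_cases e : t'.erase s = t
      · rw [if_pos e, e, single_eq_same, mul_comm]
      · rw [if_neg e, single_eq_of_ne e, mul_zero, mul_zero]
    · rw [smul_zero]

theorem dq_ne {U t t' : Finset S} (h : dq Γ col U (single t 1) t' ≠ 0) :
    Γ.IsClique t' ∧ ∃ s ∈ U, s ∉ t ∧ t' = insert s t := by
  classical
  rw [dq_single, one_smul, cof_apply] at h
  split_ifs at h with hc
  · obtain ⟨s, hs, h⟩ := Finset.exists_ne_zero_of_sum_ne_zero h
    have e : t'.erase s = t := by_contra fun e => h (if_neg e)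
    exact ⟨hc, s, (Finset.mem_inter.1 hs).2, e ▸ Finset.notMem_erase _ _,
      by rw [← e, Finset.insert_erase (Finset.mem_inter.1 hs).1]⟩
  · exact absurd rfl h

theorem dq_insert {U t : Finset S} {s : S} (hs : s ∈ U) (hn : s ∉ t)
    (hc : Γ.IsClique (insert s t : Finset S)) :
    dq Γ col U (single t 1) (insert s t) = eps col s t := by
  classical
  rw [dq_single, one_smul, cof_apply, if_pos hc, Finset.sum_eq_single_of_mem s
    (Finset.mem_inter.2 ⟨Finset.mem_insert_self _ _, hs⟩), if_pos (Finset.erase_insert hn)]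
  intro x hx hxs
  refine if_neg fun e => hn ?_
  rw [← e]
  exact Finset.mem_erase.2 ⟨hxs.symm, Finset.mem_insert_self _ _⟩

theorem cl_Q (U t0 : Finset S) : Cl (dq Γ col U) (Sp (Q Γ U t0)) :=
  cl_Sp fun t ht t' h => by
    obtain ⟨hc, s, hs, -, rfl⟩ := dq_ne h
    exact ⟨hc, ht.2.1.trans (Finset.subset_insert _ _), Finset.insert_subset hs ht.2.2⟩

theorem dq_dq (hcol : ∀ s t, Γ.Adj s t → col s ≠ col t) (U : Finset S) (a : Finset S →₀ ℤ) :
    dq Γ col U (dq Γ col U a) = 0 := by
  classical
  ext t
  rw [dq_apply, Finsupp.zero_apply]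
  split_ifs with h
  swap
  · rfl
  have e : ∀ s ∈ t ∩ U, eps col s (t.erase s) * dq Γ col U a (t.erase s) =
      ∑ x ∈ t ∩ U, if x = s then 0 else
        eps col s (t.erase s) * (eps col x ((t.erase s).erase x) * a ((t.erase s).erase x)) := by
    intro s _
    rw [dq_apply, if_pos (h.subset (Finset.coe_subset.2 (Finset.erase_subset _ _))), Finset.mul_sum,
      Finset.erase_inter, ← Finset.filter_ne', Finset.sum_filter]
    exact Finset.sum_congr rfl fun x _ => by by_cases e : x = s <;> simp [e]
  rw [Finset.sum_congr rfl e, ← Finset.sum_product']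
  refine Finset.sum_involution (fun p _ => p.swap) (fun p hp => ?_) (fun p _ h e => ?_)
    (fun p hp => ?_) fun _ _ => rfl
  · obtain ⟨s, x⟩ := p
    obtain ⟨hs, hx⟩ := Finset.mem_product.1 hp
    have hs' := (Finset.mem_inter.1 hs).1
    have hx' := (Finset.mem_inter.1 hx).1
    by_cases e : x = s
    · simp [e]
    have e' : s ≠ x := Ne.symm e
    simp only [Prod.fst_swap, Prod.snd_swap, if_neg e, if_neg e']
    have h1 : t.erase s = insert x ((t.erase s).erase x) :=
      (Finset.insert_erase (Finset.mem_erase.2 ⟨e, hx'⟩)).symm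
    have h2 : t.erase x = insert s ((t.erase s).erase x) := by
      rw [Finset.erase_right_comm]
      exact (Finset.insert_erase (Finset.mem_erase.2 ⟨e', hs'⟩)).symm
    have h3 : (t.erase x).erase s = (t.erase s).erase x := Finset.erase_right_comm
    rw [h3]
    generalize hu : (t.erase s).erase x = u at h1 h2
    rw [h1, h2, eps_insert (hu ▸ Finset.notMem_erase _ _),
      eps_insert (by rw [← hu, ← h3]; exact Finset.notMem_erase _ _)]
    rcases lt_or_gt_of_ne (hcol s x (h hs' hx' e')) with l | l
    · rw [if_neg l.not_gt, if_pos l]; ring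
    · rw [if_pos l, if_neg l.not_gt]; ring
  · exact h (if_pos (congrArg Prod.fst e))
  · exact Finset.mem_product.2 (Finset.mem_product.1 hp).symm

/-- the coboundary in a smaller set is the restriction -/
theorem dq_restrict {U U' : Finset S} (h : U' ⊆ U) (a : Finset S →₀ ℤ) {t : Finset S} (ht : t ⊆ U') :
    dq Γ col U' a t = dq Γ col U a t := by
  rw [dq_apply, dq_apply, Finset.inter_eq_left.2 ht, Finset.inter_eq_left.2 (ht.trans h)]

/-! ### transport along an embedding -/

section transport
variable {Γ' : SimpleGraph S'} {col' : S' → K} (j : S' ↪ S)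

/-- push forward of cochains -/
def pf : (Finset S' →₀ ℤ) →ₗ[ℤ] (Finset S →₀ ℤ) := lmapDomain ℤ ℤ (Finset.map j)

omit [DecidableEq S] [DecidableEq S'] in
theorem pf_single (t : Finset S') (r : ℤ) : pf j (single t r) = single (t.map j) r :=
  mapDomain_single

omit [DecidableEq S] [DecidableEq S'] in
theorem pf_apply (a : Finset S' →₀ ℤ) (t : Finset S') : pf j a (t.map j) = a t :=
  mapDomain_apply (Finset.map_injective j) a t

omit [DecidableEq S] [DecidableEq S'] in
theorem pf_inj : Function.Injective (pf j) := mapDomain_injective (Finset.map_injective j)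

omit [DecidableEq S] [DecidableEq S'] in
theorem clique_map (hadj : ∀ x y, Γ.Adj (j x) (j y) ↔ Γ'.Adj x y) (t : Finset S') :
    Γ.IsClique (t.map j : Finset S) ↔ Γ'.IsClique t := by
  rw [Finset.coe_map]
  constructor
  · exact fun h x hx y hy e => (hadj x y).1 (h ⟨x, hx, rfl⟩ ⟨y, hy, rfl⟩ fun e' => e (j.injective e'))
  · rintro h _ ⟨x, hx, rfl⟩ _ ⟨y, hy, rfl⟩ e
    exact (hadj x y).2 (h hx hy fun e' => e (congrArg j e'))

omit [DecidableEq S] [DecidableEq S'] in
theorem eps_map (hc : ∀ x, col (j x) = col' x) (s : S') (t : Finset S') :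
    eps col (j s) (t.map j) = eps col' s t := by
  unfold eps
  rw [Finset.filter_map, Finset.card_map]
  simp only [Function.comp_def, hc]

theorem dq_pf (hadj : ∀ x y, Γ.Adj (j x) (j y) ↔ Γ'.Adj x y) (hc : ∀ x, col (j x) = col' x)
    (U : Finset S') (a : Finset S' →₀ ℤ) :
    dq Γ col (U.map j) (pf j a) = pf j (dq Γ' col' U a) := by
  classical
  induction a using Finsupp.induction_linear with
  | zero => simp
  | add a b ha hb => simp only [map_add, ha, hb]
  | single t r =>
    rw [pf_single, dq_single, dq_single, map_smul, cof, cof, map_sum, Finset.filter_map,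
      Finset.sum_map]
    congr 1
    refine Finset.sum_congr (Finset.filter_congr fun s _ => ?_) fun s _ => ?_
    · simp only [Function.comp_apply, Finset.mem_map', ← Finset.map_insert, clique_map j hadj]
    · rw [pf_single, Finset.map_insert, eps_map j hc]

omit [DecidableEq S] [DecidableEq S'] in
theorem pf_mem (hadj : ∀ x y, Γ.Adj (j x) (j y) ↔ Γ'.Adj x y) {U t0 : Finset S'}
    {a : Finset S' →₀ ℤ} (h : a ∈ Sp (Q Γ' U t0)) : pf j a ∈ Sp (Q Γ (U.map j) (t0.map j)) :=
  map_mem (fun t ht t' h' => by
    rw [pf_single] at h'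
    obtain rfl := (single_apply_ne_zero.1 h').1
    exact ⟨(clique_map j hadj t).2 ht.1, Finset.map_subset_map.2 ht.2.1,
      Finset.map_subset_map.2 ht.2.2⟩) h

omit [DecidableEq S] [DecidableEq S'] in
theorem exists_pf (hadj : ∀ x y, Γ.Adj (j x) (j y) ↔ Γ'.Adj x y) {U t0 : Finset S'}
    {b : Finset S →₀ ℤ} (h : b ∈ Sp (Q Γ (U.map j) (t0.map j))) :
    ∃ a ∈ Sp (Q Γ' U t0), pf j a = b := by
  refine ⟨comapDomain (Finset.map j) b (Finset.map_injective j).injOn, mem_Sp.2 fun t ht => ?_,
    mapDomain_comapDomain _ (Finset.map_injective j) b fun t ht => ?_⟩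
  · have := mem_Sp.1 h (t.map j) ht
    exact ⟨(clique_map j hadj t).1 this.1, Finset.map_subset_map.1 this.2.1,
      Finset.map_subset_map.1 this.2.2⟩
  · obtain ⟨u, -, rfl⟩ := Finset.subset_map_iff.1 (mem_Sp.1 h t (mem_support_iff.1 ht)).2.2
    exact ⟨u, rfl⟩

omit [DecidableEq S] [DecidableEq S'] in
theorem pe_pf (z : Finset S → ℤ) (a : Finset S' →₀ ℤ) :
    pe z (pf j a) = pe (fun t => z (t.map j)) a := linearCombination_mapDomain _ _ _

/-- `Ex` is transported -/
theorem Ex.pf (hadj : ∀ x y, Γ.Adj (j x) (j y) ↔ Γ'.Adj x y) (hc : ∀ x, col (j x) = col' x)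
    {U t0 : Finset S'} {z : Finset S → ℤ}
    (h : Ex (dq Γ' col' U) (pe fun t => z (t.map j)) (Sp (Q Γ' U t0))) :
    Ex (dq Γ col (U.map j)) (pe z) (Sp (Q Γ (U.map j) (t0.map j))) := by
  intro b hb hd hs
  obtain ⟨a, ha, rfl⟩ := exists_pf j hadj hb
  rw [dq_pf j hadj hc, ← map_zero (Ch.pf j)] at hd
  obtain ⟨a', ha', rfl⟩ := h a ha (pf_inj j hd) (by rwa [pe_pf] at hs)
  exact ⟨_, pf_mem j hadj ha', dq_pf j hadj hc U a'⟩

end transport

end Crest.Agent.N255.Ch

end
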