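import Crest.Agent.N255.Fl.Filt

/-!
# Row 255 (helper32): ungraded homological algebra for the chamber lemma

`δ` is a differential on `A`, `s` a functional killing coboundaries.
-/

set_option autoImplicit false
open Finsupp

noncomputable section

namespace Crest.Agent.N255.Ch

section abs
variable {A : Type*} [AddCommGroup A] (δ : A →ₗ[ℤ] A) (s : A →ₗ[ℤ] ℤ)

/-- subcomplex -/
def Cl (P : Submodule ℤ A) : Prop := ∀ a ∈ P, δ a ∈ P

/-- the cohomology of `P` is detected by `s` -/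
def Ex (P : Submodule ℤ A) : Prop := ∀ b ∈ P, δ b = 0 → s b = 0 → ∃ a ∈ P, δ a = b

/-- `s` is onto on the cohomology of `P` -/
def Top (P : Submodule ℤ A) : Prop := ∃ b ∈ P, δ b = 0 ∧ s b = 1

/-- the quotient `P / P'` is acyclic -/
def Acyc (P P' : Submodule ℤ A) : Prop := ∀ b ∈ P, δ b ∈ P' → ∃ a ∈ P, b - δ a ∈ P'

variable {δ s} {P P' P1 P2 P3 : Submodule ℤ A}

theorem Top.mono (h : Top δ s P') (hle : P' ≤ P) : Top δ s P :=
  let ⟨b, h1, h2⟩ := h; ⟨b, hle h1, h2⟩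

theorem Cl.inf (h1 : Cl δ P1) (h2 : Cl δ P2) : Cl δ (P1 ⊓ P2) := fun a h => ⟨h1 a h.1, h2 a h.2⟩

theorem Cl.sup (h1 : Cl δ P1) (h2 : Cl δ P2) : Cl δ (P1 ⊔ P2) := fun a h => by
  obtain ⟨x, hx, y, hy, rfl⟩ := Submodule.mem_sup.1 h
  rw [map_add]
  exact Submodule.add_mem_sup (h1 x hx) (h2 y hy)

/-- every cocycle is a multiple of the top class up to a coboundary -/
theorem Ex.sub_top (h : Ex δ s P) {b0 b : A} (h0 : b0 ∈ P) (h1 : δ b0 = 0) (h2 : s b0 = 1)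
    (hb : b ∈ P) (hd : δ b = 0) : ∃ a ∈ P, δ a = b - s b • b0 :=
  h _ (P.sub_mem hb (P.smul_mem _ h0)) (by rw [map_sub, map_smul, hd, h1, smul_zero, sub_zero])
    (by rw [map_sub, map_smul, h2, smul_eq_mul, mul_one, sub_self])

/-- Mayer-Vietoris -/
theorem mv (hδ : ∀ a, δ (δ a) = 0) (hs : ∀ a, s (δ a) = 0) (c1 : Cl δ P1) (c2 : Cl δ P2)
    (e1 : Ex δ s P1) (e2 : Ex δ s P2) (e : Ex δ s (P1 ⊓ P2)) (t : Top δ s (P1 ⊓ P2)) :
    Ex δ s (P1 ⊔ P2) := by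
  intro b hb hd hsb
  obtain ⟨x, hx, y, hy, rfl⟩ := Submodule.mem_sup.1 hb
  obtain ⟨b0, h0, h1, h2⟩ := t
  rw [map_add] at hd hsb
  have hxy : δ x = -δ y := eq_neg_of_add_eq_zero_left hd
  obtain ⟨a, ha, ea⟩ := e (δ x) ⟨c1 x hx, hxy ▸ P2.neg_mem (c2 y hy)⟩ (hδ x) (hs x)
  obtain ⟨a1, ha1, f1⟩ := e1.sub_top h0.1 h1 h2 (P1.sub_mem hx ha.1) (by rw [map_sub, ea, sub_self])
  obtain ⟨a2, ha2, f2⟩ := e2.sub_top h0.2 h1 h2 (P2.add_mem hy ha.2)
    (by rw [map_add, ea, add_comm, hd])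
  refine ⟨a1 + a2, Submodule.add_mem_sup ha1 ha2, ?_⟩
  have : s (y + a) = -s (x - a) := by rw [map_add, map_sub]; linarith
  rw [map_add, f1, f2, this, neg_smul]
  abel

/-- the quotient of two complexes with the same cohomology -/
theorem ses (hδ : ∀ a, δ (δ a) = 0) (hs : ∀ a, s (δ a) = 0) (hle : P' ≤ P) (e' : Ex δ s P')
    (t : Top δ s P') (e : Ex δ s P) : Acyc δ P P' := by
  intro b hb hd
  obtain ⟨b0, h0, h1, h2⟩ := t
  obtain ⟨a1, ha1, f1⟩ := e' _ hd (hδ b) (hs b)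
  obtain ⟨a, ha, f⟩ := e.sub_top (hle h0) h1 h2 (P.sub_mem hb (hle ha1))
    (by rw [map_sub, f1, sub_self])
  refine ⟨a, ha, ?_⟩
  have : b - δ a = a1 + s (b - a1) • b0 := by rw [f]; abel
  rw [this]
  exact P'.add_mem ha1 (P'.smul_mem _ h0)

theorem Ex.of_acyc (hδ : ∀ a, δ (δ a) = 0) (hs : ∀ a, s (δ a) = 0) (hle : P' ≤ P) (e : Ex δ s P')
    (h : Acyc δ P P') : Ex δ s P := by
  intro b hb hd hsb
  obtain ⟨a, ha, h1⟩ := h b hb (by rw [hd]; exact P'.zero_mem)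
  obtain ⟨a', ha', f⟩ := e _ h1 (by rw [map_sub, hd, hδ, sub_zero]) (by rw [map_sub, hsb, hs, sub_zero])
  exact ⟨a + a', P.add_mem ha (hle ha'), by rw [map_add, f, add_sub_cancel]⟩

theorem Acyc.trans (hδ : ∀ a, δ (δ a) = 0) (h21 : P2 ≤ P1) (h32 : P3 ≤ P2) (h1 : Acyc δ P1 P2)
    (h2 : Acyc δ P2 P3) : Acyc δ P1 P3 := by
  intro b hb hd
  obtain ⟨a, ha, f⟩ := h1 b hb (h32 hd)
  obtain ⟨a', ha', f'⟩ := h2 _ f (by rw [map_sub, hδ, sub_zero]; exact hd)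
  exact ⟨a + a', P1.add_mem ha (h21 ha'), by rw [map_add, ← sub_sub]; exact f'⟩

theorem Acyc.refl (P : Submodule ℤ A) : Acyc δ P P :=
  fun b hb _ => ⟨0, P.zero_mem, by rw [map_zero, sub_zero]; exact hb⟩

/-- the mapping cone, through periods `π` on the subcomplex `E` -/
theorem cone {J : Type*} [AddCommGroup J] (π : A →ₗ[ℤ] J) {E : Submodule ℤ A}
    (hδ : ∀ a, δ (δ a) = 0) (hs : ∀ a, s (δ a) = 0) (hle : E ≤ P)
    (hE : ∀ y ∈ E, δ y = 0 → π y = 0 → ∃ y' ∈ E, δ y' = y)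
    (inj : ∀ x ∈ P, δ x = 0 → ∃ x' ∈ P, x - δ x' ∈ E)
    (sur : ∀ y ∈ E, δ y = 0 → s y = 0 → ∃ x ∈ P, δ x ∈ E ∧ π (δ x) = π y) : Ex δ s P := by
  intro b hb hd hsb
  obtain ⟨x', hx', h1⟩ := inj b hb hd
  have d1 : δ (b - δ x') = 0 := by rw [map_sub, hd, hδ, sub_zero]
  obtain ⟨x, hx, h2, h3⟩ := sur _ h1 d1 (by rw [map_sub, hsb, hs, sub_zero])
  obtain ⟨y', hy', h4⟩ := hE _ (E.sub_mem h1 h2) (by rw [map_sub, d1, hδ, sub_zero])
    (by rw [map_sub, h3, sub_self])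
  refine ⟨x' + x + y', P.add_mem (P.add_mem hx' hx) (hle hy'), ?_⟩
  rw [map_add, map_add, h4]
  abel

end abs

section fs
variable {X : Type*} {δ : (X →₀ ℤ) →ₗ[ℤ] (X →₀ ℤ)}

/-- cochains supported on a set of cells -/
abbrev Sp (U : Set X) : Submodule ℤ (X →₀ ℤ) := supported ℤ ℤ U

theorem mem_Sp {U : Set X} {a : X →₀ ℤ} : a ∈ Sp U ↔ ∀ x, a x ≠ 0 → x ∈ U := by
  rw [mem_supported']
  exact ⟨fun h x hx => by_contra fun e => hx (h x e), fun h x hx => by_contra fun e => hx (h x e)⟩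

theorem Sp_union (U V : Set X) : Sp (U ∪ V) = Sp U ⊔ Sp V := supported_union _ _

theorem Sp_inter (U V : Set X) : Sp (U ∩ V) = Sp U ⊓ Sp V := supported_inter _ _

theorem Sp_mono {U V : Set X} (h : U ⊆ V) : Sp U ≤ Sp V := supported_mono h

theorem Sp_univ (a : X →₀ ℤ) : a ∈ Sp (Set.univ : Set X) := mem_Sp.2 fun _ _ => trivial

theorem single_mem {U : Set X} {x : X} (h : x ∈ U) (r : ℤ) : single x r ∈ Sp U :=
  single_mem_supported _ _ h

theorem map_mem {Y : Type*} {f : (X →₀ ℤ) →ₗ[ℤ] (Y →₀ ℤ)} {U : Set X} {V : Set Y}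
    (h : ∀ x ∈ U, ∀ y, f (single x 1) y ≠ 0 → y ∈ V) {a : X →₀ ℤ} (ha : a ∈ Sp U) : f a ∈ Sp V :=
  mem_Sp.2 fun y hy => let ⟨x, h1, h2⟩ := Fl.exists_of_ne f hy; h x (mem_Sp.1 ha x h1) y h2

theorem cl_Sp {U : Set X} (h : ∀ x ∈ U, ∀ y, δ (single x 1) y ≠ 0 → y ∈ U) : Cl δ (Sp U) :=
  fun _ ha => map_mem h ha

open Classical in
/-- restriction to a set of cells -/
def rs (U : Set X) : (X →₀ ℤ) →ₗ[ℤ] (X →₀ ℤ) where
  toFun a := a.filter (· ∈ U)
  map_add' _ _ := filter_add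
  map_smul' _ _ := filter_smul

theorem rs_of_mem {U : Set X} (a : X →₀ ℤ) {x : X} (h : x ∈ U) : rs U a x = a x := by simp [rs, h]

theorem rs_of_notMem {U : Set X} (a : X →₀ ℤ) {x : X} (h : x ∉ U) : rs U a x = 0 := by simp [rs, h]

theorem rs_mem (U : Set X) (a : X →₀ ℤ) : rs U a ∈ Sp U :=
  mem_Sp.2 fun _ hx => by_contra fun e => hx (rs_of_notMem a e)

theorem rs_mem_inter {V : Set X} (U : Set X) {a : X →₀ ℤ} (h : a ∈ Sp V) : rs U a ∈ Sp (V ∩ U) :=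
  mem_Sp.2 fun x hx => by
    have hU : x ∈ U := mem_Sp.1 (rs_mem U a) x hx
    rw [rs_of_mem a hU] at hx
    exact ⟨mem_Sp.1 h x hx, hU⟩

theorem rs_eq_self {U : Set X} {a : X →₀ ℤ} (h : a ∈ Sp U) : rs U a = a := by
  ext x
  by_cases e : x ∈ U
  · exact rs_of_mem a e
  · rw [rs_of_notMem a e]; exact (by_contra fun e' => e (mem_Sp.1 h x (Ne.symm e')))

theorem rs_eq_zero {U : Set X} {a : X →₀ ℤ} : rs U a = 0 ↔ a ∈ Sp Uᶜ := by
  refine ⟨fun h => mem_Sp.2 fun x hx e => hx ?_, fun h => ?_⟩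
  · rw [← rs_of_mem a e, h]; rfl
  · ext x
    by_cases e : x ∈ U
    · rw [rs_of_mem a e]; exact by_contra fun e' => mem_Sp.1 h x e' e
    · exact rs_of_notMem a e

theorem rs_add_compl (U : Set X) (a : X →₀ ℤ) : rs U a + rs Uᶜ a = a := by
  ext x
  by_cases e : x ∈ U
  · rw [Finsupp.add_apply, rs_of_mem a e, rs_of_notMem a (by simpa using e), add_zero]
  · rw [Finsupp.add_apply, rs_of_notMem a e, rs_of_mem a (by simpa using e), zero_add]

/-- a cochain is the sum of its parts -/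
theorem sum_rs {I : Type*} [DecidableEq I] (l : X → I) (a : X →₀ ℤ) {F : Finset I}
    (h : ∀ x, a x ≠ 0 → l x ∈ F) : ∑ i ∈ F, rs {x | l x = i} a = a := by
  ext x
  rw [Finsupp.finsetSum_apply]
  by_cases e : a x = 0
  · rw [e]
    refine Finset.sum_eq_zero fun i _ => ?_
    by_cases e' : l x = i
    · exact (rs_of_mem a e').trans e
    · exact rs_of_notMem a e'
  · rw [Finset.sum_eq_single_of_mem (l x) (h x e) fun i _ hi =>
      rs_of_notMem (U := {x | l x = i}) a (Ne.symm hi)]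
    exact rs_of_mem (U := {y | l y = l x}) a rfl

/-- on the quotient by `V` the labels are respected -/
theorem rs_label {I : Type*} (l : X → I) {U V : Set X} (cV : Cl δ (Sp V))
    (hl : ∀ x ∈ U, x ∉ V → ∀ y, δ (single x 1) y ≠ 0 → y ∈ V ∨ l y = l x) {b : X →₀ ℤ}
    (hb : b ∈ Sp U) (hd : δ b ∈ Sp V) (i : I) : δ (rs {x | l x = i} (rs Vᶜ b)) ∈ Sp V := by
  refine mem_Sp.2 fun y hy => by_contra fun hV => ?_
  have h1 : rs {x | l x = i} (rs Vᶜ b) ∈ Sp (U ∩ Vᶜ ∩ {x | l x = i}) :=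
    rs_mem_inter _ (rs_mem_inter _ hb)
  have h2 : rs {x | l x = i}ᶜ (rs Vᶜ b) ∈ Sp (U ∩ Vᶜ ∩ {x | l x = i}ᶜ) :=
    rs_mem_inter _ (rs_mem_inter _ hb)
  obtain ⟨x, hx, hxy⟩ := Fl.exists_of_ne δ hy
  have hx' := mem_Sp.1 h1 x hx
  have hyi : l y = i := ((hl x hx'.1.1 hx'.1.2 y hxy).resolve_left hV).trans hx'.2
  have e2 : δ (rs {x | l x = i}ᶜ (rs Vᶜ b)) y = 0 := by
    by_contra hc
    obtain ⟨x, hx, hxy⟩ := Fl.exists_of_ne δ hc
    have hx' := mem_Sp.1 h2 x hx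
    exact hx'.2 (((hl x hx'.1.1 hx'.1.2 y hxy).resolve_left hV).symm.trans hyi)
  have e3 : δ (rs V b) y = 0 := by_contra fun hc => hV (mem_Sp.1 (cV _ (rs_mem V b)) y hc)
  have e4 : δ b y = 0 := by_contra fun hc => hV (mem_Sp.1 hd y hc)
  rw [← rs_add_compl V b, ← rs_add_compl {x | l x = i} (rs Vᶜ b), map_add, map_add,
    Finsupp.add_apply, Finsupp.add_apply, e3, e2, zero_add, add_zero] at e4
  exact hy e4

/-- direct sums of acyclic quotients -/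
theorem acyc_sum {I : Type*} (l : X → I) {U V : Set X} (cV : Cl δ (Sp V))
    (hl : ∀ x ∈ U, x ∉ V → ∀ y, δ (single x 1) y ≠ 0 → y ∈ V ∨ l y = l x)
    (h : ∀ i, ∀ b ∈ Sp (U ∩ Vᶜ ∩ {x | l x = i}), δ b ∈ Sp V → ∃ a ∈ Sp U, b - δ a ∈ Sp V) :
    Acyc δ (Sp U) (Sp V) := by
  classical
  intro b hb hd
  choose a ha hab using fun i => h i _ (rs_mem_inter _ (rs_mem_inter _ hb)) (rs_label l cV hl hb hd i)
  refine ⟨∑ i ∈ (rs Vᶜ b).support.image l, a i, Submodule.sum_mem _ fun i _ => ha i, ?_⟩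
  have e := sum_rs l (rs Vᶜ b) (F := (rs Vᶜ b).support.image l)
    fun x hx => Finset.mem_image_of_mem _ (mem_support_iff.2 hx)
  have : b - δ (∑ i ∈ (rs Vᶜ b).support.image l, a i) =
      rs V b + ∑ i ∈ (rs Vᶜ b).support.image l, (rs {x | l x = i} (rs Vᶜ b) - δ (a i)) := by
    rw [Finset.sum_sub_distrib, e, map_sum, ← add_sub_assoc, rs_add_compl]
  rw [this]
  exact Submodule.add_mem _ (rs_mem V b) (Submodule.sum_mem _ fun i _ => hab i)

/-- **certificates**, first half: the cells of `B` can be cleared -/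
theorem clear {O : Type*} [LinearOrder O] [WellFoundedLT O] {P : Submodule ℤ (X →₀ ℤ)} {B : Set X}
    (ρ : X → O) (h : ∀ y ∈ B, ∃ α ∈ P, (δ α y = 1 ∨ δ α y = -1) ∧
      ∀ y' ∈ B, δ α y' ≠ 0 → y' = y ∨ ρ y' < ρ y) (b : X →₀ ℤ) :
    ∃ a ∈ P, b - δ a ∈ Sp Bᶜ := by
  classical
  choose! α hα h1 h2 using h
  let f : (X →₀ ℤ) →ₗ[ℤ] (X →₀ ℤ) := rs B ∘ₗ δ ∘ₗ linearCombination ℤ α ∘ₗ rs B
  have fs : ∀ y ∈ B, ∀ y' ∈ B, f (single y 1) y' = δ (α y) y' := fun y hy y' hy' => by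
    simp only [f, LinearMap.comp_apply, rs_eq_self (single_mem hy 1), linearCombination_single,
      one_smul, rs_of_mem _ hy']
  obtain ⟨a, ha⟩ := Fl.mem_range_of_gr (ht := ρ) (lX := id) (lY := id) (f := f) (fun y y' hy => by
      have hy' : y' ∈ B := mem_Sp.1 (rs_mem B _) y' hy
      by_cases e : y ∈ B
      · rw [fs y e y' hy'] at hy; exact h2 y e y' hy' hy
      · refine absurd ?_ hy
        simp only [f, LinearMap.comp_apply, rs_eq_zero.2 (single_mem (U := Bᶜ) e 1), map_zero,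
          Finsupp.zero_apply])
    (fun b => b ∈ Sp B) (fun b a hb => Submodule.sub_mem _ hb (rs_mem B _)) (fun w b hb _ => by
      by_cases e : w ∈ B
      · refine ⟨single w (b w * δ (α w) w), fun x hx => (single_apply_ne_zero.1 hx).1, ?_⟩
        intro y hy
        obtain rfl : y = w := hy
        rw [← mul_one (b y * _), ← smul_eq_mul, ← smul_single, map_smul, Finsupp.smul_apply,
          fs y e y e, smul_eq_mul]
        rcases h1 y e with h | h <;> simp [h]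
      · refine ⟨0, fun x hx => absurd rfl hx, ?_⟩
        intro y hy
        obtain rfl : y = w := hy
        rw [map_zero]
        exact (by_contra fun e' => e (mem_Sp.1 hb y (Ne.symm e')))) (rs B b) (rs_mem B b)
  refine ⟨linearCombination ℤ α (rs B a), ?_, rs_eq_zero.1 ?_⟩
  · rw [linearCombination_apply, Finsupp.sum]
    exact P.sum_mem fun y hy =>
      P.smul_mem _ (hα y (mem_Sp.1 (rs_mem B a) y (mem_support_iff.1 hy)))
  · rw [map_sub, ← ha]; exact sub_self _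

/-- **certificates**, second half: a cochain killed by triangular chains vanishes -/
theorem vanish {O : Type*} [LinearOrder O] [WellFoundedLT O] {U : Set X} (ρ : X → O) {b : X →₀ ℤ}
    (hb : b ∈ Sp U) (h : ∀ x ∈ U, ∃ w : X →₀ ℤ, linearCombination ℤ b w = 0 ∧ (w x = 1 ∨ w x = -1) ∧
      ∀ x' ∈ U, w x' ≠ 0 → x' = x ∨ ρ x' < ρ x) : b = 0 := by
  have key : ∀ o, ∀ x, ρ x = o → b x = 0 := fun o => by
    induction o using WellFoundedLT.induction with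
    | ind o ih =>
    rintro x rfl
    by_contra hx
    obtain ⟨w, h0, h1, h2⟩ := h x (mem_Sp.1 hb x hx)
    rw [linearCombination_apply, Finsupp.sum, Finset.sum_eq_single x (fun x' hx' hne => by
      by_cases e : b x' = 0
      · rw [e, smul_zero]
      · rw [ih _ ((h2 x' (mem_Sp.1 hb x' e) (mem_support_iff.1 hx')).resolve_left hne) x' rfl,
          smul_zero]) (fun hx' => by rw [notMem_support_iff.1 hx', zero_smul])] at h0
    rcases h1 with h1 | h1 <;> simp [h1, hx] at h0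
  exact Finsupp.ext fun x => key _ x rfl

end fs

end Crest.Agent.N255.Ch

end
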