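import Crest.Agent.N255.Ch.Q
import Crest.Agent.N255.Ce.Defs

/-!
# Row 255 (helper32): the local hypotheses of the chamber lemma

`Wal`: the facts about ONE chamber `C` with walls `T j` (any graph).  `Loc M`: every vertex node of the
mirror model carries such a chamber.
-/

set_option autoImplicit false
open Finsupp

noncomputable section

namespace Crest.Agent.N255.Ch

variable {S K : Type} [DecidableEq S] [LinearOrder K]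

/-- the facts about a wall `T` (a torus): `m`, `l` the two cycles, `ω` the fundamental class; the
coefficient functions vanish off the cliques of `T` -/
structure Tor (Γ : SimpleGraph S) (col : S → K) (T : Finset S) (m l ω : Finset S → ℤ) : Prop where
  m_sup : ∀ t, m t ≠ 0 → t ∈ Q Γ T ∅ ∧ t.card = 2
  l_sup : ∀ t, l t ≠ 0 → t ∈ Q Γ T ∅ ∧ t.card = 2
  ω_sup : ∀ t, ω t ≠ 0 → t ∈ Q Γ T ∅ ∧ t.card = 3
  m_cyc : ∀ t ∈ Q Γ T ∅, pe m (dq Γ col T (single t 1)) = 0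
  l_cyc : ∀ t ∈ Q Γ T ∅, pe l (dq Γ col T (single t 1)) = 0
  ω_cyc : ∀ t ∈ Q Γ T ∅, pe ω (dq Γ col T (single t 1)) = 0
  top : ∀ t0 ∈ Q Γ T ∅, ∃ t ∈ Q Γ T t0, ω t = 1 ∨ ω t = -1
  link : ∀ t0 ∈ Q Γ T ∅, t0.Nonempty → Ex (dq Γ col T) (pe ω) (Sp (Q Γ T t0))
  glob : ∀ y ∈ Sp (Q Γ T ∅), dq Γ col T y = 0 → pe m y = 0 → pe l y = 0 → pe ω y = 0 →
    ∃ a ∈ Sp (Q Γ T ∅), dq Γ col T a = y

/-- the facts about a chamber `C` with the walls `T j`, `j ∈ J`; `o` is the orientation of `C`,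
`m j` the meridian and `l j` the longitude of the wall `j`, `ω j` minus its boundary orientation -/
structure Wal (Γ : SimpleGraph S) (col : S → K) {ι : Type} [DecidableEq ι] (J : Set ι) (C : Finset S)
    (T : ι → Finset S) (o : Finset S → ℤ) (m l ω : ι → Finset S → ℤ) : Prop where
  o_sup : ∀ t, o t ≠ 0 → t ∈ Q Γ C ∅ ∧ t.card = 4
  top : ∀ t0 ∈ Q Γ C ∅, ∃ t ∈ Q Γ C t0, o t = 1 ∨ o t = -1
  st_in : ∀ t ∈ Q Γ C ∅, (∀ j ∈ J, ¬t ⊆ T j) → pe o (dq Γ col C (single t 1)) = 0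
  st_bd : ∀ j ∈ J, ∀ t ∈ Q Γ (T j) ∅, pe o (dq Γ col C (single t 1)) + ω j t = 0
  link_in : ∀ t0 ∈ Q Γ C ∅, t0.Nonempty → (∀ j ∈ J, ¬t0 ⊆ T j) →
    Ex (dq Γ col C) (pe o) (Sp (Q Γ C t0))
  link_bd : ∀ j ∈ J, ∀ t0 ∈ Q Γ (T j) ∅, t0.Nonempty → Ex (dq Γ col C) 0 (Sp (Q Γ C t0))
  glob : ∀ x ∈ Sp (Q Γ C ∅), dq Γ col C x = 0 → (∀ j ∈ J, pe (m j) x = 0 ∧ pe (ω j) x = 0) →
    ∃ a ∈ Sp (Q Γ C ∅), dq Γ col C a = x
  one : ∀ j ∈ J, ∃ x ∈ Sp (Q Γ C ∅), dq Γ col C x = 0 ∧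
    ∀ i ∈ J, pe (m i) x = (if i = j then 1 else 0) ∧ pe (l i) x = 0 ∧ pe (ω i) x = 0
  two : ∃ j0, ∀ j ∈ J, ∃ y ∈ Sp (Q Γ C ∅), dq Γ col C y = 0 ∧ ∀ i ∈ J, pe (m i) y = 0 ∧
    pe (l i) y = 0 ∧ pe (ω i) y = (if i = j then 1 else 0) - if i = j0 then 1 else 0

variable {F Nd Ed : Type} [Group F] [MulAction F Nd] [MulAction F Ed] [DecidableEq Ed]

/-- the local structure of a mirror model; `op e` is the other half of the edge -/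
structure Loc (M : Ce.Mir S K F Nd Ed) where
  op : Ed → Ed
  op_ne : ∀ e, op e ≠ e
  tgt_op : ∀ e, M.tgt (op e) = M.tgt e
  tgt_eq : ∀ e e', M.tgt e = M.tgt e' → e' = e ∨ e' = op e
  mid : ∀ n, M.ty n → ∃ e, M.tgt e = n
  wall : ∀ e, M.sp (M.tgt e) ⊆ M.sp (M.src e)
  w1 : ∀ e e' s, s ∈ M.sp (M.tgt e) → s ∈ M.sp (M.tgt e') → M.tgt e = M.tgt e'
  w2 : ∀ n n' s, ¬M.ty n → ¬M.ty n' → n ≠ n' → s ∈ M.sp n → s ∈ M.sp n' →
    ∃ e, M.src e = n ∧ M.src (op e) = n' ∧ M.sp n ∩ M.sp n' ⊆ M.sp (M.tgt e)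
  src_op : ∀ e, M.src (op e) ≠ M.src e
  vtx : ∃ n, ¬M.ty n
  o : Nd → Finset S → ℤ
  m : Ed → Finset S → ℤ
  ω : Ed → Finset S → ℤ
  ω_op : ∀ e t, ω (op e) t = -ω e t
  o_smul : ∀ (f : F) n (t : Finset S), ¬M.ty n → t ⊆ M.sp n → o (f • n) (t.image (M.ρ f)) = o n t
  ω_smul : ∀ (f : F) e (t : Finset S), t ⊆ M.sp (M.tgt e) → ω (f • e) (t.image (M.ρ f)) = ω e t
  tor : ∀ e, Tor M.Γ M.col (M.sp (M.tgt e)) (m e) (m (op e)) (ω e)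
  wal : ∀ n, ¬M.ty n → Wal M.Γ M.col {e | M.src e = n} (M.sp n) (fun e => M.sp (M.tgt e)) (o n) m
    (fun e => m (op e)) ω

end Crest.Agent.N255.Ch

end
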