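import Crest.Agent.N255.Ch.Amb

/-!
# Row 255 (helper32): Stokes, longitudes and the two tree arguments
-/

set_option autoImplicit false
open Finsupp

noncomputable section

namespace Crest.Agent.N255.Ch

variable {S K F Nd Ed : Type} [DecidableEq S] [LinearOrder K] [Group F] [MulAction F Nd]
  [MulAction F Ed] {M : Ce.Mir S K F Nd Ed}

/-- the half edges at a vertex -/
def star (M : Ce.Mir S K F Nd Ed) (n : Nd) : Finset Ed := (fin_nd M false n).toFinset

omit [LinearOrder K] in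
theorem mem_star {n : Nd} {e : Ed} : e ∈ star M n ↔ M.src e = n := (fin_nd M false n).mem_toFinset

omit [LinearOrder K] in
theorem src_ne_tgt (e e' : Ed) : M.src e ≠ M.tgt e' := fun h => M.ty_src e (h ▸ M.ty_tgt e')

omit [LinearOrder K] in
/-- the tree is connected -/
theorem conn {N : Type} (g : Ed → N) (h1 : ∀ e e', M.src e = M.src e' → g e = g e')
    (h2 : ∀ e e', M.tgt e = M.tgt e' → g e = g e') (e e' : Ed) : g e = g e' := by
  obtain ⟨R, -⟩ := M.root ∅ (by simp)
  have touch : ∀ e e' n, (M.src e = n ∨ M.tgt e = n) → (M.src e' = n ∨ M.tgt e' = n) → g e = g e' := by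
    rintro e e' n (h | h) (h' | h')
    · exact h1 _ _ (h.trans h'.symm)
    · exact absurd (h.trans h'.symm) (src_ne_tgt _ _)
    · exact absurd (h'.trans h.symm) (src_ne_tgt _ _)
    · exact h2 _ _ (h.trans h'.symm)
  have tu : ∀ e, M.src e = R.up e ∨ M.tgt e = R.up e := fun e =>
    (R.ud e).imp (fun h => h.1.symm) fun h => h.1.symm
  have td : ∀ e, M.src e = R.dn e ∨ M.tgt e = R.dn e := fun e =>
    ((R.ud e).imp (fun h => h.2.symm) fun h => h.2.symm).symm
  have key : ∀ k e, R.ht (R.up e) = k → ∃ e0, (M.src e0 = R.o ∨ M.tgt e0 = R.o) ∧ g e = g e0 := by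
    intro k
    induction k using Nat.strong_induction_on with
    | _ k ih =>
    rintro e rfl
    by_cases h : R.dn e = R.o
    · exact ⟨e, h ▸ td e, rfl⟩
    · obtain ⟨e1, h1, -⟩ := R.par _ h
      obtain ⟨e0, a, b⟩ := ih _ (h1 ▸ R.lt e) e1 rfl
      exact ⟨e0, a, (touch e e1 _ (td e) (h1 ▸ tu e1)).trans b⟩
  obtain ⟨a, ha, ea⟩ := key _ e rfl
  obtain ⟨b, hb, eb⟩ := key _ e' rfl
  rw [ea, eb, touch a b _ ha hb]

variable [DecidableEq Ed] (L : Loc M)
include L

namespace Loc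

theorem op_op (e : Ed) : L.op (L.op e) = e :=
  ((L.tgt_eq (L.op e) e (L.tgt_op e)).resolve_left (L.op_ne e).symm).symm

theorem sup_inr (e : Ed) : M.sup (.inr e) = M.sp (M.tgt e) := Finset.inter_eq_right.2 (L.wall e)

/-- there is no finite flow on a tree -/
theorem flow (f : Ed → ℤ) (B : Finset Ed) (hB : ∀ e, f e ≠ 0 → e ∈ B) (h1 : ∀ e, f (L.op e) = -f e)
    (h2 : ∀ n, ¬M.ty n → ∑ e ∈ star M n, f e = 0) (e : Ed) : f e = 0 := by
  obtain ⟨R, -⟩ := M.root ∅ (by simp)
  by_contra h0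
  obtain ⟨e, he, hmax⟩ := (B.filter fun e => f e ≠ 0).exists_max_image (fun e => R.ht (R.up e))
    ⟨e, Finset.mem_filter.2 ⟨hB e h0, h0⟩⟩
  have hne : R.up e ≠ R.o := fun h => by have := R.lt e; rw [h, R.ht_o] at this; omega
  have key : ∀ e', e' ≠ e → (M.src e' = R.up e ∨ M.tgt e' = R.up e) → f e' = 0 := fun e' hn ht => by
    by_contra hf
    have h3 := hmax e' (Finset.mem_filter.2 ⟨hB e' hf, hf⟩)
    have h4 : R.up e' ≠ R.up e := fun h => hn ((R.par _ hne).unique h rfl)
    have h5 : R.dn e' = R.up e := by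
      rcases R.ud e' with h | h <;> rcases ht with ht | ht
      exacts [absurd (h.1.trans ht) h4, h.2.trans ht, h.2.trans ht, absurd (h.1.trans ht) h4]
    have := R.lt e'
    rw [h5] at this
    exact absurd h3 (not_le.2 this)
  refine (Finset.mem_filter.1 he).2 ?_
  rcases R.ud e with h | h
  · have := h2 _ (M.ty_src e)
    rwa [Finset.sum_eq_single_of_mem e (mem_star.2 rfl) fun e' he' hn =>
      key e' hn (Or.inl ((mem_star.1 he').trans h.1.symm))] at this
  · have := key _ (L.op_ne e) (Or.inr ((L.tgt_op e).trans h.1.symm))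
    rwa [h1, neg_eq_zero] at this

theorem eq_of_sub {t : Finset S} (ht : t.Nonempty) {e e' : Ed} (h : t ⊆ M.sp (M.tgt e))
    (h' : t ⊆ M.sp (M.tgt e')) : e' = e ∨ e' = L.op e :=
  let ⟨s, hs⟩ := ht; L.tgt_eq e e' (L.w1 e e' s (h hs) (h' hs))

/-- Stokes in one chamber -/
theorem vs {n : Nd} (hn : ¬M.ty n) {a : Finset S →₀ ℤ} (ha : a ∈ Sp (Q M.Γ (M.sp n) ∅)) :
    pe (L.o n) (dq M.Γ M.col (M.sp n) a) + ∑ e ∈ star M n, pe (L.ω e) a = 0 := by
  have := eq_zero_on (f := pe (L.o n) ∘ₗ dq M.Γ M.col (M.sp n) + ∑ e ∈ star M n, pe (L.ω e))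
    (fun t ht => ?_) ha
  · simpa only [LinearMap.add_apply, LinearMap.comp_apply, LinearMap.sum_apply] using this
  simp only [LinearMap.add_apply, LinearMap.comp_apply, LinearMap.sum_apply,
    linearCombination_single, one_smul]
  by_cases h : ∃ e, M.src e = n ∧ t ⊆ M.sp (M.tgt e)
  · obtain ⟨e, he, hte⟩ := h
    rw [Finset.sum_eq_single_of_mem e (mem_star.2 he) fun e' he' hne => ?_]
    · exact (L.wal n hn).st_bd e he t ⟨ht.1, ht.2.1, hte⟩
    by_contra hc
    obtain ⟨h1, h2⟩ := (L.tor e').ω_sup t hc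
    rcases L.eq_of_sub (Finset.card_pos.1 (by omega)) hte h1.2.2 with h | h
    · exact hne h
    · exact L.src_op e (by rw [← h, mem_star.1 he', he])
  · rw [(L.wal n hn).st_in t ht fun e he hte => h ⟨e, he, hte⟩, zero_add]
    exact Finset.sum_eq_zero fun e he => by_contra fun hc =>
      h ⟨e, mem_star.1 he, ((L.tor e).ω_sup t hc).1.2.2⟩

/-- a cycle of degree `k` on the wall of `e` -/
structure Cyc (M : Ce.Mir S K F Nd Ed) (e : Ed) (z : Finset S → ℤ) (k : ℕ) : Prop where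
  sup : ∀ t, z t ≠ 0 → t ∈ Q M.Γ (M.sp (M.tgt e)) ∅ ∧ t.card = k
  cyc : ∀ t ∈ Q M.Γ (M.sp (M.tgt e)) ∅, pe z (dq M.Γ M.col (M.sp (M.tgt e)) (single t 1)) = 0

theorem cm (e : Ed) : Cyc M e (L.m e) 2 := ⟨(L.tor e).m_sup, (L.tor e).m_cyc⟩
theorem cl (e : Ed) : Cyc M e (L.m (L.op e)) 2 := ⟨(L.tor e).l_sup, (L.tor e).l_cyc⟩
theorem cω (e : Ed) : Cyc M e (L.ω e) 3 := ⟨(L.tor e).ω_sup, (L.tor e).ω_cyc⟩

omit L [DecidableEq Ed] in
theorem Cyc.rs {e : Ed} {z : Finset S → ℤ} {k : ℕ} (h : Cyc M e z k) (a : Finset S →₀ ℤ) :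
    pe z (rs (Q M.Γ (M.sp (M.tgt e)) ∅) a) = pe z a := pe_rs (fun t ht => (h.sup t ht).1) a

omit L [DecidableEq Ed] in
theorem Cyc.dq {e : Ed} {z : Finset S → ℤ} {k : ℕ} (h : Cyc M e z k) {C : Finset S}
    (hC : M.sp (M.tgt e) ⊆ C) (a : Finset S →₀ ℤ) : pe z (dq M.Γ M.col C a) = 0 := by
  rw [← h.rs, rs_dq hC]
  exact eq_zero_on (f := pe z ∘ₗ Ch.dq M.Γ M.col (M.sp (M.tgt e))) h.cyc (rs_mem _ a)

theorem per_de {e : Ed} {z : Finset S → ℤ} {k : ℕ} (h : Cyc M e z k)
    (x : Finset S × (Nd ⊕ Ed) →₀ ℤ) : pe z (sl M (.inr e) (de M x)) =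
      (-1) ^ k * (pe z (sl M (.inl (M.tgt e)) x) - pe z (sl M (.inl (M.src e)) x)) := by
  rw [sl_de_inr, L.sup_inr, map_add, h.dq subset_rfl, zero_add, pe_sg fun t ht => (h.sup t ht).2,
    h.rs, map_sub]

theorem per_eq {e : Ed} {z : Finset S → ℤ} {k : ℕ} (h : Cyc M e z k)
    {x : Finset S × (Nd ⊕ Ed) →₀ ℤ} (hx : de M x = 0) :
    pe z (sl M (.inl (M.tgt e)) x) = pe z (sl M (.inl (M.src e)) x) := by
  have := L.per_de h x
  rw [hx, map_zero, map_zero, eq_comm, mul_eq_zero, sub_eq_zero] at this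
  exact this.resolve_left (by positivity)

/-- the longitudes bound -/
theorem lon {e : Ed} {x : Finset S →₀ ℤ} (hx : x ∈ Sp (Q M.Γ (M.sp (M.src e)) ∅))
    (hd : dq M.Γ M.col (M.sp (M.src e)) x = 0) : pe (L.m (L.op e)) x = 0 := by
  have W := L.wal _ (M.ty_src e)
  choose! a ha hda hpa using W.one
  obtain ⟨j0, h2⟩ := W.two
  choose! b hb hdb hpb using h2
  have hs := L.vs (M.ty_src e) hx
  rw [hd, map_zero, zero_add] at hs
  have ms : ∀ {j}, j ∈ star M (M.src e) → j ∈ {j | M.src j = M.src e} := mem_star.1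
  obtain ⟨u, -, hu⟩ := W.glob (x - ∑ j ∈ star M (M.src e), pe (L.m j) x • a j -
      ∑ j ∈ star M (M.src e), pe (L.ω j) x • b j)
    (Submodule.sub_mem _ (Submodule.sub_mem _ hx (Submodule.sum_mem _ fun j hj =>
      Submodule.smul_mem _ _ (ha j (ms hj)))) (Submodule.sum_mem _ fun j hj =>
      Submodule.smul_mem _ _ (hb j (ms hj))))
    (by
      simp only [map_sub, map_sum, map_smul, hd]
      rw [Finset.sum_eq_zero fun j hj => by rw [hda j (ms hj), smul_zero],
        Finset.sum_eq_zero fun j hj => by rw [hdb j (ms hj), smul_zero], sub_zero, sub_zero])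
    fun i hi => by
      simp only [map_sub, map_sum, map_smul, smul_eq_mul]
      constructor
      · rw [Finset.sum_congr rfl fun j hj => by rw [(hpa j (ms hj) i hi).1],
          Finset.sum_eq_zero (s := star M _) (f := fun j => pe (L.ω j) x * pe (L.m i) (b j))
            fun j hj => by rw [(hpb j (ms hj) i hi).1, mul_zero]]
        simp [mem_star.2 hi]
      · rw [Finset.sum_eq_zero fun j hj => by rw [(hpa j (ms hj) i hi).2.2, mul_zero],
          Finset.sum_congr rfl fun j hj => by rw [(hpb j (ms hj) i hi).2.2, mul_sub],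
          Finset.sum_sub_distrib, ← Finset.sum_mul, hs]
        simp [mem_star.2 hi]
  have := (L.cl e).dq (L.wall e) u
  rw [hu] at this
  simp only [map_sub, map_sum, map_smul, smul_eq_mul] at this
  rwa [Finset.sum_eq_zero fun j hj => by rw [(hpa j (ms hj) e rfl).2.1, mul_zero],
    Finset.sum_eq_zero fun j hj => by rw [(hpb j (ms hj) e rfl).2.1, mul_zero], sub_zero,
    sub_zero] at this

open Classical in
/-- the orientation of the chamber complex -/
def or : Finset S × (Nd ⊕ Ed) → ℤ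
  | (t, .inl n) => if M.ty n then 0 else L.o n t
  | (t, .inr e) => L.ω e t

theorem or_vtx {n : Nd} (h : ¬M.ty n) : (fun t => L.or (t, .inl n)) = L.o n :=
  funext fun _ => if_neg h

theorem or_mid {n : Nd} (h : M.ty n) : (fun t => L.or (t, .inl n)) = 0 := funext fun _ => if_pos h

theorem or_inr (e : Ed) : (fun t => L.or (t, .inr e)) = L.ω e := rfl

theorem pe_op (e : Ed) (a : Finset S →₀ ℤ) : pe (L.ω (L.op e)) a = -pe (L.ω e) a := by
  simp [linearCombination_apply, Finsupp.sum, L.ω_op]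

omit L [DecidableEq Ed] [LinearOrder K] in
theorem sl_inc_ite [DecidableEq Nd] {t0 : Finset S} {n : Nd} {a : Finset S →₀ ℤ}
    (ha : a ∈ Sp (Q M.Γ (M.sp n) t0)) (n' : Nd) :
    sl M (.inl n') (inc (.inl n) a) = if n' = n then a else 0 := by
  split_ifs with h
  · rw [h, sl_inc M (c := .inl n) ha]
  · exact sl_inc_ne M (fun e => h (Sum.inl_injective e)) a

omit L [DecidableEq Ed] in
theorem sl_de_inc {t0 : Finset S} {n : Nd} {a : Finset S →₀ ℤ}
    (ha : a ∈ Sp (Q M.Γ (M.sp n) t0)) {e : Ed} (h1 : M.tgt e ≠ n) (h2 : M.src e ≠ n) :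
    sl M (.inr e) (de M (inc (.inl n) a)) = 0 := by
  classical
  rw [sl_de_inr, sl_inc_ite ha, sl_inc_ite ha, if_neg h1, if_neg h2, sl_inc_ne M Sum.inr_ne_inl]
  simp

/-- Stokes -/
theorem stokes (x : Finset S × (Nd ⊕ Ed) →₀ ℤ) : pe L.or (de M x) = 0 := by
  classical
  refine eq_zero_on (f := pe L.or ∘ₗ de M) (fun q _ => ?_) (Sp_univ x)
  rw [LinearMap.comp_apply]
  by_cases hq : q ∈ U M ∅
  swap
  · rw [show de M (single q 1) = 0 from Finsupp.ext fun q' => by_contra fun h => hq ?_, map_zero]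
    obtain ⟨h1, h2, h3⟩ := de_ne M h
    refine ⟨h1.1.subset (Finset.coe_subset.2 h2), Finset.empty_subset _, h2.trans ?_⟩
    rcases h3 with h3 | ⟨b, e, rfl, h3⟩
    · exact h3.1 ▸ h1.2.2
    · rw [h3]; exact h1.2.2.trans (M.sup_nd b _)
  obtain ⟨t, c⟩ := q
  have ha : single t (1 : ℤ) ∈ Sp (Q M.Γ (M.sup c) ∅) := single_mem (U := Q _ _ _) hq 1
  rw [← inc_single]
  generalize single t (1 : ℤ) = a at ha
  rcases c with n | e
  · have hn : ∀ n', n' ≠ n → sl M (.inl n') (de M (inc (.inl n) a)) = 0 := fun n' h => by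
      rw [sl_de_inl, sl_inc_ite ha, if_neg h, map_zero]
    by_cases hty : M.ty n
    · obtain ⟨e, rfl⟩ := L.mid n hty
      rw [pe_eq_sum M _ (de_mem M _) (B := {.inl (M.tgt e), .inr e, .inr (L.op e)})]
      · rw [Finset.sum_insert (by simp), Finset.sum_pair (by simpa using (L.op_ne e).symm),
          L.or_mid hty, L.or_inr, L.or_inr, L.per_de (L.cω e), L.per_de (L.cω (L.op e)), L.tgt_op]
        simp [sl_inc_ite ha, src_ne_tgt, L.pe_op]
      · rintro (n' | e') h
        · obtain rfl : n' = M.tgt e := by_contra fun h' => h (hn n' h')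
          simp
        · rcases L.tgt_eq e e' (by_contra fun h' =>
            h (sl_de_inc ha (Ne.symm h') (src_ne_tgt _ _))) with rfl | rfl <;> simp
    · rw [pe_eq_sum M _ (de_mem M _) (B := insert (.inl n) ((star M n).image .inr))]
      · rw [Finset.sum_insert (by simp), Finset.sum_image Sum.inr_injective.injOn, L.or_vtx hty,
          sl_de_inl, sl_inc M (c := .inl n) ha, ← L.vs hty ha]
        congr 1
        refine Finset.sum_congr rfl fun e he => ?_
        rw [L.or_inr, L.per_de (L.cω e), sl_inc_ite ha, sl_inc_ite ha, if_pos (mem_star.1 he),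
          if_neg fun h : M.tgt e = n => hty (h ▸ M.ty_tgt e)]
        simp
      · rintro (n' | e') h
        · obtain rfl : n' = n := by_contra fun h' => h (hn n' h')
          simp
        · have : M.src e' = n := by_contra fun h' =>
            h (sl_de_inc ha (fun h'' => hty (h'' ▸ M.ty_tgt e')) h')
          simp [mem_star, this]
  · have hE : inc (.inr e) a ∈ Sp (E M ∅) :=
      Sp_mono (V := E M ∅) (fun q hq => ⟨hq.1, e, hq.2⟩) (inc_mem M ha)
    rw [pe_eq_sum M _ (de_mem M _) (B := {.inr e})]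
    · rw [Finset.sum_singleton, L.or_inr, sl_de_E M hE, L.sup_inr, (L.cω e).dq subset_rfl]
    · rintro (n' | e') h
      · rw [sl_de_inl, sl_inc_ne M Sum.inl_ne_inr, map_zero] at h
        exact absurd rfl h
      · by_contra h'
        rw [sl_de_E M hE, sl_inc_ne M (by simpa using h'), map_zero] at h
        exact h rfl

end Loc

end Crest.Agent.N255.Ch

end
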